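import Mathlib

/-!
Uniform averages on finite types, junta degree, and block products.
-/

namespace Vale.Agent.P047

open Finset

noncomputable section

/-- Uniform average over a finite type. -/
def Ex {Ω : Type*} [Fintype Ω] (F : Ω → ℝ) : ℝ := (∑ x, F x) / (Fintype.card Ω : ℝ)

section ExBasic
variable {Ω : Type*} [Fintype Ω]

lemma Ex_add (F G : Ω → ℝ) : Ex (fun x => F x + G x) = Ex F + Ex G := by
  simp [Ex, sum_add_distrib, add_div]

lemma Ex_sub (F G : Ω → ℝ) : Ex (fun x => F x - G x) = Ex F - Ex G := by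
  simp [Ex, sum_sub_distrib, sub_div]

lemma Ex_neg (F : Ω → ℝ) : Ex (fun x => - F x) = - Ex F := by
  simp [Ex, sum_neg_distrib, neg_div]

lemma Ex_const_mul (c : ℝ) (F : Ω → ℝ) : Ex (fun x => c * F x) = c * Ex F := by
  simp [Ex, ← mul_sum, mul_div_assoc]

lemma Ex_mul_const (c : ℝ) (F : Ω → ℝ) : Ex (fun x => F x * c) = Ex F * c := by
  simp only [Ex, ← sum_mul]; ring

lemma Ex_sum {κ : Type*} (s : Finset κ) (F : κ → Ω → ℝ) :
    Ex (fun x => ∑ k ∈ s, F k x) = ∑ k ∈ s, Ex (F k) := by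
  simp only [Ex]
  rw [sum_comm, sum_div]

lemma Ex_mono {F G : Ω → ℝ} (h : ∀ x, F x ≤ G x) : Ex F ≤ Ex G := by
  unfold Ex
  exact div_le_div_of_nonneg_right (sum_le_sum fun x _ => h x) (Nat.cast_nonneg _)

lemma Ex_nonneg {F : Ω → ℝ} (h : ∀ x, 0 ≤ F x) : 0 ≤ Ex F := by
  unfold Ex
  exact div_nonneg (sum_nonneg fun x _ => h x) (Nat.cast_nonneg _)

lemma Ex_const [Nonempty Ω] (c : ℝ) : Ex (fun _ : Ω => c) = c := by
  have : (Fintype.card Ω : ℝ) ≠ 0 := by exact_mod_cast Fintype.card_ne_zero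
  simp [Ex]

lemma Ex_congr {F G : Ω → ℝ} (h : ∀ x, F x = G x) : Ex F = Ex G := by
  rw [funext h]

lemma Ex_equiv {Ω' : Type*} [Fintype Ω'] (e : Ω ≃ Ω') (F : Ω' → ℝ) :
    Ex (fun x => F (e x)) = Ex F := by
  unfold Ex
  rw [Equiv.sum_comp e F, Fintype.card_congr e]

lemma Ex_comm {Ω' : Type*} [Fintype Ω'] (F : Ω → Ω' → ℝ) :
    Ex (fun x => Ex (fun y => F x y)) = Ex (fun y => Ex (fun x => F x y)) := by
  simp only [Ex, ← sum_div]
  rw [sum_comm]; ring

lemma Ex_prod {Ω' : Type*} [Fintype Ω'] (F : Ω × Ω' → ℝ) :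
    Ex F = Ex (fun x => Ex (fun y => F (x, y))) := by
  simp only [Ex, ← sum_div, Fintype.sum_prod_type, Fintype.card_prod, Nat.cast_mul]
  rw [div_div, mul_comm]

variable {κ : Type*} [Fintype κ] [DecidableEq κ]

lemma Ex_pi_prod (F : κ → Ω → ℝ) :
    Ex (fun x : κ → Ω => ∏ k, F k (x k)) = ∏ k, Ex (F k) := by
  simp only [Ex, prod_div_distrib, prod_const, card_univ, Fintype.card_pi, Nat.cast_pow]
  rw [Fintype.prod_sum]

lemma Ex_update [Nonempty Ω] (k : κ) (H : (κ → Ω) → ℝ) :
    Ex H = Ex (fun x => Ex (fun ω => H (Function.update x k ω))) := by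
  let e : (κ → Ω) × Ω ≃ (κ → Ω) × Ω :=
    { toFun := fun p => (Function.update p.1 k p.2, p.1 k)
      invFun := fun p => (Function.update p.1 k p.2, p.1 k)
      left_inv := by intro p; simp
      right_inv := by intro p; simp }
  have h1 : Ex (fun p : (κ → Ω) × Ω => H p.1) = Ex H := by
    rw [Ex_prod]; simp only [Ex_const]
  rw [← h1, ← Ex_equiv e, Ex_prod]
  rfl

/-- Replacing one factor by another with the same conditional mean. -/
lemma Ex_swap [Nonempty Ω] {S : Type*} (σ : Ω → S) (a b : Ω → ℝ)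
    (h : ∀ g : S → ℝ, Ex (fun ω => a ω * g (σ ω)) = Ex (fun ω => b ω * g (σ ω)))
    (k : κ) (Φ : (κ → S) → ℝ) :
    Ex (fun x : κ → Ω => a (x k) * Φ (fun j => σ (x j))) =
      Ex (fun x : κ → Ω => b (x k) * Φ (fun j => σ (x j))) := by
  rw [Ex_update k, Ex_update k (fun x : κ → Ω => b (x k) * Φ (fun j => σ (x j)))]
  apply Ex_congr
  intro x
  have key : ∀ ω, (fun j => σ (Function.update x k ω j)) =
      Function.update (fun j => σ (x j)) k (σ ω) := by
    intro ω; funext j
    by_cases hj : j = k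
    · subst hj; simp
    · simp [Function.update_of_ne hj]
  simp only [key, Function.update_self]
  exact h (fun s => Φ (Function.update (fun j => σ (x j)) k s))

lemma prod_update_mul (a : κ → Ω → ℝ) (j : κ) (c : Ω → ℝ) (x : κ → Ω) :
    ∏ k, (Function.update a j (fun ω => a j ω * c ω)) k (x k) = (∏ k, a k (x k)) * c (x j) := by
  have h : ∏ k ∈ univ.erase j, (Function.update a j (fun ω => a j ω * c ω)) k (x k) =
      ∏ k ∈ univ.erase j, a k (x k) :=
    prod_congr rfl (fun k hk => by rw [Function.update_of_ne (ne_of_mem_erase hk)])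
  rw [← mul_prod_erase univ _ (mem_univ j), ← mul_prod_erase univ _ (mem_univ j), h]
  simp only [Function.update_self]
  ring

lemma Ex_pi_single (a : κ → Ω → ℝ) (j : κ) (c : Ω → ℝ) :
    Ex (fun x : κ → Ω => (∏ k, a k (x k)) * c (x j)) =
      Ex (fun ω => a j ω * c ω) * ∏ k ∈ univ.erase j, Ex (a k) := by
  simp only [← prod_update_mul]
  rw [Ex_pi_prod, ← mul_prod_erase univ _ (mem_univ j)]
  simp only [Function.update_self]
  rw [prod_congr rfl (fun k hk => by rw [Function.update_of_ne (ne_of_mem_erase hk)])]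

lemma Ex_pi_cross (a : κ → Ω → ℝ) (i j : κ) (hij : i ≠ j) (b c : Ω → ℝ)
    (h : Ex (fun ω => a j ω * c ω) = 0) :
    Ex (fun x : κ → Ω => (∏ k, a k (x k)) * (b (x i) * c (x j))) = 0 := by
  have : ∀ x : κ → Ω, (∏ k, a k (x k)) * (b (x i) * c (x j)) =
      (∏ k, (Function.update a i (fun ω => a i ω * b ω)) k (x k)) * c (x j) := by
    intro x
    rw [prod_update_mul]; ring
  simp only [this]
  rw [Ex_pi_single, Function.update_of_ne hij.symm, h, zero_mul]

/-- Second moment of a sum of independent terms against a product weight. -/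
lemma Ex_pi_sq (a b : κ → Ω → ℝ) (k₀ : κ)
    (h : ∀ k, k ≠ k₀ → Ex (fun ω => a k ω * b k ω) = 0) :
    Ex (fun x : κ → Ω => (∏ k, a k (x k)) * (∑ k, b k (x k)) ^ 2) =
      ∑ j, Ex (fun ω => a j ω * b j ω ^ 2) * ∏ k ∈ univ.erase j, Ex (a k) := by
  have : ∀ x : κ → Ω, (∏ k, a k (x k)) * (∑ k, b k (x k)) ^ 2 =
      ∑ i, ∑ j, (∏ k, a k (x k)) * (b i (x i) * b j (x j)) := by
    intro x
    rw [sq, sum_mul_sum, mul_sum]
    exact sum_congr rfl fun i _ => by rw [mul_sum]
  simp only [this]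
  rw [Ex_sum]
  refine sum_congr rfl fun i _ => ?_
  rw [Ex_sum, sum_eq_single i]
  · rw [← Ex_pi_single]
    apply Ex_congr; intro x; ring
  · intro j _ hji
    by_cases hj : j = k₀
    · have hi : i ≠ k₀ := fun h' => hji (hj.trans h'.symm)
      rw [← Ex_pi_cross a j i hji (b j) (b i) (h i hi)]
      apply Ex_congr; intro x; ring
    · exact Ex_pi_cross a i j (Ne.symm hji) (b i) (b j) (h j hj)
  · simp

end ExBasic

section Low
variable {ι β : Type*}

/-- Span of the functions depending on at most `d` coordinates. -/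
def Low (ι β : Type*) (d : ℕ) : Submodule ℝ ((ι → β) → ℝ) :=
  Submodule.span ℝ {F | ∃ J : Finset ι, J.card ≤ d ∧ ∀ x y, (∀ i ∈ J, x i = y i) → F x = F y}

lemma Low_of_dep {d : ℕ} {F : (ι → β) → ℝ} (J : Finset ι) (hJ : J.card ≤ d)
    (h : ∀ x y, (∀ i ∈ J, x i = y i) → F x = F y) : F ∈ Low ι β d :=
  Submodule.subset_span ⟨J, hJ, h⟩

lemma Low_mono {a b : ℕ} (h : a ≤ b) {F : (ι → β) → ℝ} (hF : F ∈ Low ι β a) : F ∈ Low ι β b := by
  refine Submodule.span_mono ?_ hF
  rintro G ⟨J, hJ, hG⟩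
  exact ⟨J, hJ.trans h, hG⟩

lemma Low_const (d : ℕ) (c : ℝ) : (fun _ : ι → β => c) ∈ Low ι β d :=
  Low_of_dep ∅ (by simp) (fun _ _ _ => rfl)

lemma Low_mul {a b : ℕ} {F G : (ι → β) → ℝ} (hF : F ∈ Low ι β a) (hG : G ∈ Low ι β b) :
    (fun x => F x * G x) ∈ Low ι β (a + b) := by
  classical
  change F * G ∈ _
  induction hF using Submodule.span_induction with
  | mem F hF =>
    induction hG using Submodule.span_induction with
    | mem G hG =>
      obtain ⟨J, hJ, hF⟩ := hF
      obtain ⟨K, hK, hG⟩ := hG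
      refine Low_of_dep (J ∪ K) ((card_union_le _ _).trans (add_le_add hJ hK)) ?_
      intro x y hxy
      simp only [Pi.mul_apply]
      rw [hF x y fun i hi => hxy i (mem_union_left _ hi),
        hG x y fun i hi => hxy i (mem_union_right _ hi)]
    | zero => simp
    | add G G' _ _ h1 h2 => rw [mul_add]; exact add_mem h1 h2
    | smul c G _ h1 => rw [mul_smul_comm]; exact Submodule.smul_mem _ _ h1
  | zero => simp
  | add F F' _ _ h1 h2 => rw [add_mul]; exact add_mem h1 h2
  | smul c F _ h1 => rw [smul_mul_assoc]; exact Submodule.smul_mem _ _ h1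

lemma Low_add {a : ℕ} {F G : (ι → β) → ℝ} (hF : F ∈ Low ι β a) (hG : G ∈ Low ι β a) :
    (fun x => F x + G x) ∈ Low ι β a := add_mem hF hG

lemma Low_sum {a : ℕ} {κ : Type*} (s : Finset κ) {F : κ → (ι → β) → ℝ}
    (hF : ∀ k ∈ s, F k ∈ Low ι β a) : (fun x => ∑ k ∈ s, F k x) ∈ Low ι β a := by
  have := Submodule.sum_mem _ hF
  convert this using 1
  funext x; simp

lemma Low_comap {ι' : Type*} {d : ℕ} (e : ι → ι') (φ : β → β) {F : (ι → β) → ℝ}
    (hF : F ∈ Low ι β d) : (fun x : ι' → β => F (fun i => φ (x (e i)))) ∈ Low ι' β d := by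
  classical
  induction hF using Submodule.span_induction with
  | mem F hF =>
    obtain ⟨J, hJ, hF⟩ := hF
    refine Low_of_dep (J.image e) (card_image_le.trans hJ) ?_
    intro x y hxy
    exact hF _ _ fun i hi => by rw [hxy _ (mem_image_of_mem e hi)]
  | zero => exact Low_const d 0
  | add F G _ _ h1 h2 => exact add_mem h1 h2
  | smul c F _ h1 => exact Submodule.smul_mem _ c h1

/-- A function of low block degree of low-degree symbols has low degree. -/
lemma Low_block [Fintype ι] [DecidableEq ι] [Fintype β] {S κ : Type*} {D m : ℕ}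
    (σ : (ι → β) → S)
    (hσ : ∀ g : S → ℝ, (fun x => g (σ x)) ∈ Low ι β D)
    {Φ : (κ → S) → ℝ} (hΦ : Φ ∈ Low κ S m) :
    (fun x : κ × ι → β => Φ (fun k => σ (fun i => x (k, i)))) ∈ Low (κ × ι) β (m * D) := by
  classical
  have key : ∀ J : Finset κ, ∀ Φ : (κ → S) → ℝ, (∀ x y, (∀ i ∈ J, x i = y i) → Φ x = Φ y) →
      (fun x : κ × ι → β => Φ (fun k => σ (fun i => x (k, i)))) ∈
        Low (κ × ι) β (J.card * D) := by
    intro J
    induction J using Finset.induction_on with
    | empty =>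
      intro Φ h
      exact Low_of_dep ∅ (by simp) (fun x y _ => h _ _ (by simp))
    | insert k J hk ih =>
      intro Φ h
      have e : (fun x : κ × ι → β => Φ (fun k => σ (fun i => x (k, i)))) =
          fun x => ∑ s ∈ univ.image σ, (if σ (fun i => x (k, i)) = s then (1:ℝ) else 0) *
            Φ (Function.update (fun k => σ (fun i => x (k, i))) k s) := by
        funext x
        simp only [ite_mul, one_mul, zero_mul]
        rw [sum_ite_eq]
        simp
      rw [e, card_insert_of_notMem hk, add_mul, one_mul, add_comm]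
      refine Low_sum _ fun s _ => Low_mul ?_ ?_
      · exact Low_comap (fun i => (k, i)) id (hσ (fun t => if t = s then 1 else 0))
      · refine ih (fun z => Φ (Function.update z k s)) ?_
        intro x y hxy
        apply h
        intro i hi
        by_cases hik : i = k
        · subst hik; simp
        · simp only [Function.update_of_ne hik]
          exact hxy i ((mem_insert.1 hi).resolve_left hik)
  induction hΦ using Submodule.span_induction with
  | mem F hF =>
    obtain ⟨J, hJ, hF⟩ := hF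
    exact Low_mono (Nat.mul_le_mul_right D hJ) (key J F hF)
  | zero => exact Low_const _ 0
  | add F G _ _ h1 h2 => exact add_mem h1 h2
  | smul c F _ h1 => exact Submodule.smul_mem _ c h1

lemma Ex_curry [Fintype ι] [DecidableEq ι] [Fintype β] {κ : Type*} [Fintype κ] [DecidableEq κ]
    (H : (κ → ι → β) → ℝ) :
    Ex (fun x : κ × ι → β => H (fun k i => x (k, i))) = Ex H :=
  Ex_equiv (Equiv.curry κ ι β) H

end Low

end

end Vale.Agent.P047
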