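import Vale.Agent.P047.Gadget

/-!
The central limit theorem for uniform averages on finite types.
-/

namespace Vale.Agent.P047

open Finset MeasureTheory ProbabilityTheory Filter Topology
open scoped BoundedContinuousFunction

noncomputable section

variable {Ω : Type*} [Fintype Ω]

/-- The law of a real function on a finite type with the uniform measure. -/
def law (w : Ω → ℝ) : Measure ℝ :=
  ((Fintype.card Ω : ENNReal))⁻¹ • ∑ x, Measure.dirac (w x)

lemma integral_law {E : Type*} [NormedAddCommGroup E] [NormedSpace ℝ E] [CompleteSpace E]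
    (w : Ω → ℝ) (φ : ℝ → E) :
    ∫ t, φ t ∂(law w) = ((Fintype.card Ω : ℝ))⁻¹ • ∑ x, φ (w x) := by
  unfold law
  rw [integral_smul_measure, integral_finsetSum_measure]
  · simp [integral_dirac]
  · intro x _
    exact integrable_dirac enorm_lt_top

lemma integral_law_real (w : Ω → ℝ) (φ : ℝ → ℝ) :
    ∫ t, φ t ∂(law w) = Ex (fun x => φ (w x)) := by
  rw [integral_law, Ex, smul_eq_mul, div_eq_inv_mul]

instance law_prob [Nonempty Ω] (w : Ω → ℝ) : IsProbabilityMeasure (law w) := by
  constructor
  unfold law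
  simp only [Measure.smul_apply, Measure.coe_finsetSum, Finset.sum_apply, measure_univ,
    sum_const, card_univ, nsmul_eq_mul, mul_one, smul_eq_mul]
  exact ENNReal.inv_mul_cancel (by exact_mod_cast Fintype.card_ne_zero) (by simp)

/-- Normalised sum of `M` independent copies. -/
def sumW (w : Ω → ℝ) (M : ℕ) (x : Fin M → Ω) : ℝ := (√M)⁻¹ * ∑ k, w (x k)

lemma charFun_law_sumW (w : Ω → ℝ) (M : ℕ) (t : ℝ) :
    charFun (law (sumW w M)) t = (charFun (law w) ((√M)⁻¹ * t)) ^ M := by
  simp only [charFun_apply_real, integral_law, sumW]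
  have h : ∀ x : Fin M → Ω, Complex.exp (t * (((√M)⁻¹ * ∑ k, w (x k) : ℝ) : ℂ) * Complex.I) =
      ∏ k, Complex.exp ((((√M)⁻¹ * t : ℝ) : ℂ) * (w (x k)) * Complex.I) := by
    intro x
    rw [← Complex.exp_sum]
    congr 1
    push_cast
    rw [← sum_mul, ← mul_sum]; ring
  simp only [h]
  rw [← Fintype.prod_sum (fun (_ : Fin M) (ω : Ω) =>
    Complex.exp ((((√M)⁻¹ * t : ℝ) : ℂ) * (w ω) * Complex.I))]
  simp [mul_pow]

/-- The standard Gaussian as a probability measure. -/
def gam : ProbabilityMeasure ℝ := ⟨gaussianReal 0 1, inferInstance⟩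

/-- The law as a probability measure. -/
def lawP [Nonempty Ω] (w : Ω → ℝ) : ProbabilityMeasure ℝ := ⟨law w, inferInstance⟩

theorem clt_law [Nonempty Ω] (w : Ω → ℝ) (h0 : Ex w = 0) (h1 : Ex (fun ω => w ω ^ 2) = 1) :
    Tendsto (fun M : ℕ => lawP (sumW w M)) atTop (𝓝 gam) := by
  refine ProbabilityMeasure.tendsto_iff_tendsto_charFun.2 fun t => ?_
  have := tendsto_charFun_inv_sqrt_mul_pow (P := law w) (X := id) aemeasurable_id
    (by simpa [integral_law_real w (fun t => t)] using h0)
    (by simpa [integral_law_real w (fun t => t ^ 2)] using h1) t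
  simp only [Measure.map_id] at this
  simpa [gam, lawP, charFun_law_sumW, charFun_gaussianReal, neg_div] using this

theorem clt_bcf [Nonempty Ω] (w : Ω → ℝ) (h0 : Ex w = 0) (h1 : Ex (fun ω => w ω ^ 2) = 1)
    (φ : ℝ →ᵇ ℝ) :
    Tendsto (fun M : ℕ => Ex (fun x => φ (sumW w M x))) atTop
      (𝓝 (∫ t, φ t ∂(gaussianReal 0 1))) := by
  have := ProbabilityMeasure.tendsto_iff_forall_integral_tendsto.1 (clt_law w h0 h1) φ
  simpa [integral_law_real, gam, lawP] using this

lemma law_real (w : Ω → ℝ) {s : Set ℝ} (hs : MeasurableSet s) :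
    (law w).real s = Ex (fun x => ind (w x ∈ s)) := by
  rw [← integral_indicator_one hs, integral_law_real]
  apply Ex_congr; intro x
  by_cases h : w x ∈ s
  · rw [ind_pos h]; simp [h]
  · rw [ind_neg h]; simp [h]

theorem clt_Ico [Nonempty Ω] (w : Ω → ℝ) (h0 : Ex w = 0) (h1 : Ex (fun ω => w ω ^ 2) = 1)
    (a b : ℝ) :
    Tendsto (fun M : ℕ => Ex (fun x => ind (sumW w M x ∈ Set.Ico a b))) atTop
      (𝓝 ((gaussianReal 0 1).real (Set.Ico a b))) := by
  have hf : (gam : Measure ℝ) (frontier (Set.Ico a b)) = 0 := by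
    have : NullSingletonClass (gaussianReal 0 1) := nullSingletonClass_gaussianReal one_ne_zero
    have : (frontier (Set.Ico a b)).Finite := by
      rcases lt_or_ge a b with h | h
      · rw [frontier_Ico h]; exact Set.toFinite _
      · rw [Set.Ico_eq_empty (not_lt.2 h)]; simp
    exact this.measure_zero (gaussianReal 0 1)
  have := ProbabilityMeasure.tendsto_measure_of_null_frontier_of_tendsto' (clt_law w h0 h1) hf
  have h2 := (ENNReal.tendsto_toReal (measure_ne_top (gam : Measure ℝ) _)).comp this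
  simp only [← law_real _ measurableSet_Ico]
  exact h2

end

end Vale.Agent.P047
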