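import Mathlib

namespace Vale.Agent.P047

/-- Fourier coefficient `E[f(X) ∏_{i ∈ S} X_i]` for `X` uniform on `{-1,1}^n`;
the set `{-1,1}` is modelled by the units `Units ℤ` of the integers. -/
noncomputable def coeff {n : ℕ} (f : (Fin n → Units ℤ) → ℝ) (S : Finset (Fin n)) : ℝ :=
  (∑ x : Fin n → Units ℤ, f x * ∏ i ∈ S, ((x i : ℤ) : ℝ)) / 2 ^ n

/-- Fourier degree: the largest size of a set with nonzero coefficient. -/
noncomputable def deg {n : ℕ} (f : (Fin n → Units ℤ) → ℝ) : ℕ :=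
  (Finset.univ.filter fun S : Finset (Fin n) => coeff f S ≠ 0).sup Finset.card

/-- `f` takes only the values `1` and `-1`. -/
def IsBoolean {n : ℕ} (f : (Fin n → Units ℤ) → ℝ) : Prop := ∀ x, f x = 1 ∨ f x = -1

end Vale.Agent.P047
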