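import Vale.Agent.P047.Basic

/-!
The address gadget: a partition of `card κ + 1` symbols into pieces of block degree `card κ`
whose mean conditional variance is below the variance of one symbol.
-/

namespace Vale.Agent.P047

open Finset

noncomputable section

open Classical in
/-- Real indicator of a proposition. -/
def ind (P : Prop) : ℝ := if P then 1 else 0

lemma ind_nonneg (P : Prop) : 0 ≤ ind P := by unfold ind; split_ifs <;> norm_num

lemma ind_pos {P : Prop} (h : P) : ind P = 1 := by unfold ind; simp [h]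

lemma ind_neg {P : Prop} (h : ¬ P) : ind P = 0 := by unfold ind; simp [h]

variable {κ : Type*} [Fintype κ] [DecidableEq κ]

omit [DecidableEq κ] in
lemma prod_ind (P : κ → Prop) : ∏ i, ind (P i) = ind (∀ i, P i) := by
  by_cases h : ∀ i, P i
  · rw [ind_pos h]; exact prod_eq_one fun i _ => ind_pos (h i)
  · rw [ind_neg h]
    push Not at h
    obtain ⟨i, hi⟩ := h
    exact prod_eq_zero (mem_univ i) (ind_neg hi)

lemma sum_ind_mul (k : κ) (F : κ → ℝ) : ∑ j, ind (k = j) * F j = F k := by
  rw [sum_eq_single k]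
  · rw [ind_pos rfl, one_mul]
  · intro j _ hj; rw [ind_neg (Ne.symm hj), zero_mul]
  · simp

open Classical in
/-- The score of the gadget partition. -/
def gad (α : ℝ → κ) (X : κ → Set ℝ) (c : ℝ) (z : Option κ → ℝ) : ℝ :=
  if ∀ i, z (some i) ∈ X i then ∑ i, z (some i)
  else if ∀ i, i ≠ α (z none) → z (some i) ∈ X i then c
  else z none + ∑ i ∈ univ.erase (α (z none)), z (some i)

lemma gad_low (α : ℝ → κ) (X : κ → Set ℝ) (c : ℝ) (g : ℝ → ℝ) :
    (fun z => g (gad α X c z)) ∈ Low (Option κ) ℝ (Fintype.card κ) := by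
  classical
  have e : (fun z => g (gad α X c z)) = fun z =>
      (∑ j, ind (α (z none) = j) * (if ∀ i, i ≠ j → z (some i) ∈ X i then g c
        else g (z none + ∑ i ∈ univ.erase j, z (some i)))) +
      (if ∀ i, z (some i) ∈ X i then g (∑ i, z (some i)) - g c else 0) := by
    funext z
    rw [sum_ind_mul]
    unfold gad
    by_cases h1 : ∀ i, z (some i) ∈ X i
    · have h2 : ∀ i, i ≠ α (z none) → z (some i) ∈ X i := fun i _ => h1 i
      rw [if_pos h1, if_pos h1, if_pos h2]; ring
    · rw [if_neg h1, if_neg h1]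
      split_ifs <;> simp
  rw [e]
  have hc : ∀ k : Option κ, (univ.erase k).card ≤ Fintype.card κ := by
    intro k; rw [card_erase_of_mem (mem_univ _)]; simp
  refine Low_add (Low_sum _ fun j _ => ?_) ?_
  · refine Low_of_dep (univ.erase (some j)) (hc _) ?_
    intro x y hxy
    have h0 : x none = y none := hxy _ (by simp)
    have h1 : ∀ i, i ≠ j → x (some i) = y (some i) := fun i hi => hxy _ (by simp [hi])
    have h2 : (∀ i, i ≠ j → x (some i) ∈ X i) ↔ (∀ i, i ≠ j → y (some i) ∈ X i) :=
      forall_congr' fun i => forall_congr' fun hi => by rw [h1 i hi]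
    have h3 : ∑ i ∈ univ.erase j, x (some i) = ∑ i ∈ univ.erase j, y (some i) :=
      sum_congr rfl fun i hi => h1 i (ne_of_mem_erase hi)
    simp only [h0, h2, h3]
  · refine Low_of_dep (univ.erase none) (hc _) ?_
    intro x y hxy
    have h1 : ∀ i, x (some i) = y (some i) := fun i => hxy _ (by simp)
    simp only [h1]

/-- Weights of the line with free coordinate `some j`. -/
def wa (α : ℝ → κ) (X : κ → Set ℝ) (j : κ) : Option κ → ℝ → ℝ
  | none, t => ind (α t = j)
  | some i, t => ind (i ≠ j → t ∈ X i)

/-- Weights of the line with free coordinate `none`. -/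
def wb (X : κ → Set ℝ) : Option κ → ℝ → ℝ
  | none, _ => 1
  | some i, t => ind (t ∈ X i)

lemma gad_sq (α : ℝ → κ) (X : κ → Set ℝ) (c : ℝ) (z : Option κ → ℝ) :
    (∑ k, z k - gad α X c z) ^ 2 =
      ∑ j, ind (α (z none) = j) * z (some j) ^ 2 +
      ∑ j, ((∏ k, wa α X j k (z k)) * (∑ k, z k - c) ^ 2 -
        (∏ k, wa α X j k (z k)) * z (some j) ^ 2) -
      ((∏ k, wb X k (z k)) * (∑ k, z k - c) ^ 2 - (∏ k, wb X k (z k)) * z none ^ 2) := by
  simp only [Fintype.prod_option, wa, wb, prod_ind, one_mul, mul_assoc, ← mul_sub, sum_ind_mul]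
  unfold gad
  by_cases h1 : ∀ i, z (some i) ∈ X i
  · have h2 : ∀ i, i ≠ α (z none) → z (some i) ∈ X i := fun i _ => h1 i
    rw [if_pos h1, ind_pos h1, ind_pos h2, Fintype.sum_option]; ring
  · rw [if_neg h1, ind_neg h1]
    by_cases h2 : ∀ i, i ≠ α (z none) → z (some i) ∈ X i
    · rw [if_pos h2, ind_pos h2]; ring
    · rw [if_neg h2, ind_neg h2, Fintype.sum_option,
        ← add_sum_erase univ (fun i => z (some i)) (mem_univ (α (z none)))]
      ring

variable {Ω : Type*} [Fintype Ω] [Nonempty Ω]

theorem gad_gain (w : Ω → ℝ) (h0 : Ex w = 0) (h1 : Ex (fun ω => w ω ^ 2) = 1)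
    (α : ℝ → κ) (X : κ → Set ℝ) (a : κ → ℝ) (g s : ℝ)
    (hX : ∀ i, ∀ t ∈ X i, |t - a i| ≤ g)
    (hp : ∀ i, 0 < Ex (fun ω => ind (w ω ∈ X i))) :
    ∃ c : ℝ, Ex (fun x : Option κ → Ω => (∑ k, w (x k) - gad α X c (fun k => w (x k))) ^ 2) ≤
      1 - (∏ i, Ex (fun ω => ind (w ω ∈ X i))) * (s ^ 2 - ∑ j,
        Ex (fun ω => ind (α (w ω) = j) *
          (2 * (w ω + s - a j) ^ 2 + (4 * Fintype.card κ + 2) * g ^ 2)) /
          Ex (fun ω => ind (w ω ∈ X j))) := by
  set p : κ → ℝ := fun i => Ex (fun ω => ind (w ω ∈ X i)) with hpdef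
  have hp' : ∀ i, 0 < p i := hp
  set μ : κ → ℝ := fun i => Ex (fun ω => ind (w ω ∈ X i) * w ω) / p i with hμ
  have hcen : ∀ i, Ex (fun ω => ind (w ω ∈ X i) * (w ω - μ i)) = 0 := by
    intro i
    simp only [mul_sub]
    rw [Ex_sub, Ex_mul_const]
    have := hp' i
    change _ - p i * μ i = 0
    rw [hμ]; field_simp; ring
  have hμa : ∀ i, |μ i - a i| ≤ g := by
    intro i
    have hpi := hp' i
    have e : p i * (μ i - a i) = Ex (fun ω => ind (w ω ∈ X i) * (w ω - a i)) := by
      have : (fun ω => ind (w ω ∈ X i) * (w ω - a i)) =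
          fun ω => ind (w ω ∈ X i) * (w ω - μ i) + ind (w ω ∈ X i) * (μ i - a i) := by
        funext ω; ring
      rw [this, Ex_add, hcen, Ex_mul_const, zero_add]
    have up : Ex (fun ω => ind (w ω ∈ X i) * (w ω - a i)) ≤ p i * g := by
      rw [hpdef, ← Ex_mul_const]
      apply Ex_mono; intro ω
      by_cases h : w ω ∈ X i
      · rw [ind_pos h]; have := (abs_le.1 (hX i _ h)).2; linarith
      · rw [ind_neg h]; simp
    have lo : p i * (-g) ≤ Ex (fun ω => ind (w ω ∈ X i) * (w ω - a i)) := by
      rw [hpdef, ← Ex_mul_const]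
      apply Ex_mono; intro ω
      by_cases h : w ω ∈ X i
      · rw [ind_pos h]; have := (abs_le.1 (hX i _ h)).1; linarith
      · rw [ind_neg h]; simp
    rw [← e] at up lo
    exact abs_le.2 ⟨le_of_mul_le_mul_left lo hpi, le_of_mul_le_mul_left up hpi⟩
  have hvar : ∀ i, Ex (fun ω => ind (w ω ∈ X i) * (w ω - μ i) ^ 2) ≤ p i * (4 * g ^ 2) := by
    intro i
    rw [hpdef, ← Ex_mul_const]
    apply Ex_mono; intro ω
    by_cases h : w ω ∈ X i
    · rw [ind_pos h]
      have h1 := abs_le.1 (hX i _ h)
      have h2 := abs_le.1 (hμa i)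
      have h3 : (w ω - μ i) ^ 2 ≤ (2 * g) ^ 2 := sq_le_sq' (by linarith) (by linarith)
      linarith
    · rw [ind_neg h]; simp
  set c : ℝ := ∑ i, μ i - s with hc
  refine ⟨c, ?_⟩
  simp only [gad_sq]
  rw [Ex_sub, Ex_add, Ex_sum, Ex_sum]
  -- the main lines
  have T1 : ∑ j, Ex (fun x : Option κ → Ω => ind (α (w (x none)) = j) * w (x (some j)) ^ 2) = 1 := by
    have : ∀ j, Ex (fun x : Option κ → Ω => ind (α (w (x none)) = j) * w (x (some j)) ^ 2) =
        Ex (fun x : Option κ → Ω => ind (α (w (x none)) = j) * 1) := by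
      intro j
      rw [Ex_update (some j), Ex_update (some j) (fun x : Option κ → Ω =>
        ind (α (w (x none)) = j) * 1)]
      apply Ex_congr; intro x
      simp only [Function.update_self, ne_eq, reduceCtorEq, not_false_eq_true,
        Function.update_of_ne]
      rw [Ex_const_mul, h1, Ex_const]
    simp only [this]
    rw [← Ex_sum]
    simp only [sum_ind_mul]
    exact Ex_const 1
  -- the removed line
  have T0 : (∏ i, p i) * s ^ 2 ≤ Ex (fun x : Option κ → Ω =>
      (∏ k, wb X k (w (x k))) * (∑ k, w (x k) - c) ^ 2 -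
        (∏ k, wb X k (w (x k))) * w (x none) ^ 2) := by
    let b : Option κ → Ω → ℝ := fun k ω => match k with
      | none => w ω + s
      | some i => w ω - μ i
    have hb : ∀ x : Option κ → Ω, ∑ k, w (x k) - c = ∑ k, b k (x k) := by
      intro x
      simp only [Fintype.sum_option, b, sum_sub_distrib, hc]; ring
    simp only [hb]
    rw [Ex_sub, Ex_pi_sq (fun k ω => wb X k (w ω)) b none,
      Ex_pi_single (fun k ω => wb X k (w ω)) none (fun ω => w ω ^ 2), Fintype.sum_option]
    · have e1 : ∏ k ∈ univ.erase none, Ex (fun ω => wb X k (w ω)) = ∏ i, p i := by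
        have := mul_prod_erase univ (fun k => Ex (fun ω => wb X k (w ω))) (mem_univ none)
        rw [Fintype.prod_option] at this
        simp only [wb, Ex_const, one_mul] at this
        exact this
      have e2 : Ex (fun ω => wb X none (w ω) * b none ω ^ 2) = 1 + s ^ 2 := by
        have : (fun ω => wb X none (w ω) * b none ω ^ 2) =
            fun ω => w ω ^ 2 + (2 * s * w ω + s ^ 2) := by
          funext ω; simp only [wb, b]; ring
        rw [this, Ex_add, Ex_add, Ex_const_mul, h0, h1, Ex_const]; ring
      have e3 : Ex (fun ω => wb X none (w ω) * w ω ^ 2) = 1 := by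
        simp only [wb, one_mul]; exact h1
      have e4 : 0 ≤ ∑ i : κ, Ex (fun ω => wb X (some i) (w ω) * b (some i) ω ^ 2) *
          ∏ k ∈ univ.erase (some i), Ex (fun ω => wb X k (w ω)) := by
        have hw : ∀ k t, 0 ≤ wb X k t := by
          intro k t; cases k
          · simp [wb]
          · exact ind_nonneg _
        refine sum_nonneg fun i _ => mul_nonneg (Ex_nonneg fun ω => ?_) ?_
        · exact mul_nonneg (hw _ _) (sq_nonneg _)
        · exact prod_nonneg fun k _ => Ex_nonneg fun ω => hw _ _
      rw [e1, e2, e3]; linarith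
    · intro k hk
      cases k with
      | none => exact absurd rfl hk
      | some i => exact hcen i
  -- the added lines
  have Tj : ∀ j, Ex (fun x : Option κ → Ω =>
      (∏ k, wa α X j k (w (x k))) * (∑ k, w (x k) - c) ^ 2 -
        (∏ k, wa α X j k (w (x k))) * w (x (some j)) ^ 2) ≤
      (∏ i, p i) * (Ex (fun ω => ind (α (w ω) = j) *
          (2 * (w ω + s - a j) ^ 2 + (4 * Fintype.card κ + 2) * g ^ 2)) / p j) := by
    intro j
    let b : Option κ → Ω → ℝ := fun k ω => match k with
      | none => w ω + s - μ j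
      | some i => w ω - ind (j ≠ i) * μ i
    have hb : ∀ x : Option κ → Ω, ∑ k, w (x k) - c = ∑ k, b k (x k) := by
      intro x
      have : ∑ i, ind (j ≠ i) * μ i = ∑ i, μ i - μ j := by
        rw [← sum_ind_mul j μ, ← sum_sub_distrib]
        refine sum_congr rfl fun i _ => ?_
        by_cases h : j = i
        · rw [ind_pos h, ind_neg (fun h' => h' h)]; ring
        · rw [ind_neg h, ind_pos h]; ring
      simp only [Fintype.sum_option, b, sum_sub_distrib, hc, this]; ring
    have hw : ∀ k t, 0 ≤ wa α X j k t := by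
      intro k t; cases k <;> exact ind_nonneg _
    have hEa : ∀ i, Ex (fun ω => wa α X j (some i) (w ω)) = if i = j then 1 else p i := by
      intro i
      split_ifs with h
      · simp only [wa]
        rw [← Ex_const (Ω := Ω) 1]
        exact Ex_congr fun ω => ind_pos (fun h' => absurd h h')
      · simp only [wa, hpdef, ne_eq, h, not_false_eq_true, forall_const]
    set R : ℝ := (∏ i, p i) / p j with hR
    have hRe : ∏ i, Ex (fun ω => wa α X j (some i) (w ω)) = R := by
      have hj := hp' j
      rw [hR, ← mul_prod_erase univ _ (mem_univ j), ← mul_prod_erase univ p (mem_univ j), hEa,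
        if_pos rfl, one_mul, mul_div_cancel_left₀ _ hj.ne']
      exact prod_congr rfl fun i hi => by rw [hEa, if_neg (ne_of_mem_erase hi)]
    set P : ℝ := Ex (fun ω => ind (α (w ω) = j)) with hP
    have hall : ∏ k, Ex (fun ω => wa α X j k (w ω)) = P * R := by
      rw [Fintype.prod_option, hRe]; rfl
    have hP0 : 0 ≤ P := Ex_nonneg fun ω => ind_nonneg _
    have hR0 : 0 ≤ R := div_nonneg (prod_nonneg fun i _ => (hp' i).le) (hp' j).le
    simp only [hb]
    rw [Ex_sub, Ex_pi_sq (fun k ω => wa α X j k (w ω)) b none,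
      Ex_pi_single (fun k ω => wa α X j k (w ω)) (some j) (fun ω => w ω ^ 2), Fintype.sum_option]
    · have e1 : ∏ k ∈ univ.erase none, Ex (fun ω => wa α X j k (w ω)) = R := by
        rw [← hRe]
        have : (univ : Finset (Option κ)).erase none = univ.map ⟨some, Option.some_injective _⟩ := by
          ext k; cases k <;> simp
        rw [this, prod_map]; rfl
      have e2 : ∀ i : κ, Ex (fun ω => wa α X j (some i) (w ω) * b (some i) ω ^ 2) *
          ∏ k ∈ univ.erase (some i), Ex (fun ω => wa α X j k (w ω)) ≤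
          ind (j = i) * (Ex (fun ω => wa α X j (some i) (w ω) * w ω ^ 2) *
            ∏ k ∈ univ.erase (some i), Ex (fun ω => wa α X j k (w ω))) + 4 * g ^ 2 * (P * R) := by
        intro i
        by_cases h : j = i
        · have hb' : ∀ ω, b (some i) ω = w ω := by
            intro ω; simp only [b]; rw [ind_neg (fun h' => h' h)]; ring
          simp only [hb']
          rw [ind_pos h, one_mul]
          have : 0 ≤ 4 * g ^ 2 * (P * R) := by positivity
          linarith
        · rw [ind_neg h, zero_mul, zero_add, ← hall, ← mul_prod_erase univ _ (mem_univ (some i)),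
            ← mul_assoc, hEa, if_neg (Ne.symm h)]
          refine mul_le_mul_of_nonneg_right ?_ (prod_nonneg fun k _ => Ex_nonneg fun ω => hw _ _)
          have := hvar i
          have e : (fun ω => wa α X j (some i) (w ω) * b (some i) ω ^ 2) =
              fun ω => ind (w ω ∈ X i) * (w ω - μ i) ^ 2 := by
            funext ω
            have h' : i ≠ j := Ne.symm h
            simp only [wa, b, ind_pos h, ne_eq, h', not_false_eq_true, forall_const, one_mul]
          rw [e]; linarith
      have e3 := sum_le_sum fun i (_ : i ∈ univ) => e2 i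
      rw [sum_add_distrib, sum_ind_mul, sum_const, card_univ, nsmul_eq_mul] at e3
      have e4 : Ex (fun ω => wa α X j none (w ω) * b none ω ^ 2) +
          Fintype.card κ * (4 * g ^ 2) * P ≤ Ex (fun ω => ind (α (w ω) = j) *
          (2 * (w ω + s - a j) ^ 2 + (4 * Fintype.card κ + 2) * g ^ 2)) := by
        rw [hP, ← Ex_const_mul, ← Ex_add]
        apply Ex_mono; intro ω
        simp only [wa, b]
        have h2 := abs_le.1 (hμa j)
        have h3 : (μ j - a j) ^ 2 ≤ g ^ 2 := sq_le_sq' h2.1 h2.2
        have h4 : (w ω + s - μ j) ^ 2 ≤ 2 * (w ω + s - a j) ^ 2 + 2 * g ^ 2 := by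
          nlinarith [sq_nonneg (w ω + s - a j + (μ j - a j))]
        have := mul_le_mul_of_nonneg_left h4 (ind_nonneg (α (w ω) = j))
        nlinarith
      have e5 := mul_le_mul_of_nonneg_right e4 hR0
      have e6 : ∀ E : ℝ, (∏ i, p i) * (E / p j) = E * R := by
        intro E; rw [hR]; ring
      rw [e1, e6]
      linarith
    · intro k hk
      cases k with
      | none => exact absurd rfl hk
      | some i =>
        by_cases h : j = i
        · have e : (fun ω => wa α X j (some i) (w ω) * b (some i) ω) = w := by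
            funext ω
            simp only [wa, b]
            rw [ind_neg (fun h' : j ≠ i => h' h), ind_pos (fun h' => absurd h.symm h')]; ring
          rw [e, h0]
        · have e : (fun ω => wa α X j (some i) (w ω) * b (some i) ω) =
              fun ω => ind (w ω ∈ X i) * (w ω - μ i) := by
            funext ω
            have h' : i ≠ j := Ne.symm h
            simp only [wa, b, ind_pos h, ne_eq, h', not_false_eq_true, forall_const, one_mul]
          rw [e, hcen]
  have Tsum := sum_le_sum fun j (_ : j ∈ univ) => Tj j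
  rw [← mul_sum] at Tsum
  rw [T1, mul_sub]
  linarith

end

end Vale.Agent.P047
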