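import Vale.Agent.P047.Gauss

/-!
The gadget has a gain bounded below uniformly over all normalised sums of many copies.
-/

namespace Vale.Agent.P047

open Finset MeasureTheory ProbabilityTheory Filter Topology
open scoped BoundedContinuousFunction

noncomputable section

variable {Ω : Type*} [Fintype Ω] [Nonempty Ω]

lemma Ex_pi_coord {κ : Type*} [Fintype κ] [DecidableEq κ] (k : κ) (F : Ω → ℝ) :
    Ex (fun x : κ → Ω => F (x k)) = Ex F := by
  rw [Ex_update k]
  simp only [Function.update_self]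
  exact Ex_const _

lemma Ex_sum_sq {κ : Type*} [Fintype κ] [DecidableEq κ] [Nonempty κ] (w : Ω → ℝ) (h0 : Ex w = 0)
    (h1 : Ex (fun ω => w ω ^ 2) = 1) :
    Ex (fun x : κ → Ω => (∑ k, w (x k)) ^ 2) = Fintype.card κ := by
  have := Ex_pi_sq (κ := κ) (fun _ _ => (1 : ℝ)) (fun _ => w) (Classical.arbitrary κ)
    (fun k _ => by simpa using h0)
  simpa [h1, Ex_const] using this

lemma sumW_mean (w : Ω → ℝ) (h0 : Ex w = 0) (M : ℕ) : Ex (sumW w M) = 0 := by
  unfold sumW
  rw [Ex_const_mul, Ex_sum]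
  simp [Ex_pi_coord, h0]

lemma sumW_sq (w : Ω → ℝ) (h0 : Ex w = 0) (h1 : Ex (fun ω => w ω ^ 2) = 1) (M : ℕ) (hM : 1 ≤ M) :
    Ex (fun x => sumW w M x ^ 2) = 1 := by
  have : Nonempty (Fin M) := ⟨⟨0, hM⟩⟩
  have hM0 : (0 : ℝ) < M := by exact_mod_cast hM
  unfold sumW
  simp only [mul_pow]
  rw [Ex_const_mul, Ex_sum_sq w h0 h1, inv_pow, Real.sq_sqrt hM0.le, Fintype.card_fin,
    inv_mul_cancel₀ hM0.ne']

theorem uniform_gain : ∃ (N : ℕ) (α : ℝ → Option (Fin N)) (X : Option (Fin N) → Set ℝ) (γ : ℝ),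
    0 < γ ∧ ∀ (Ω : Type) [Fintype Ω] [Nonempty Ω] (w : Ω → ℝ), Ex w = 0 →
      Ex (fun ω => w ω ^ 2) = 1 → ∀ᶠ M : ℕ in atTop, ∃ c : ℝ,
        Ex (fun x : Option (Option (Fin N)) → (Fin M → Ω) =>
          (∑ k, sumW w M (x k) - gad α X c (fun k => sumW w M (x k))) ^ 2) ≤ 1 - γ := by
  classical
  obtain ⟨R, m, φ, hR, hRm, hφ1, hφ2, hnum⟩ := gauss_numerics
  have hR1 : (1 : ℝ) ≤ R := by exact_mod_cast hR
  have hR0 : (0 : ℝ) < R := by linarith
  have hm1 : (1 : ℝ) ≤ m := by exact_mod_cast hR.trans hRm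
  have hm0 : (0 : ℝ) < m := by linarith
  set N := 2 * R * m ^ 2 with hN
  set g : ℝ := 1 / (m : ℝ) ^ 3 with hg
  set h : ℝ := 1 / (m : ℝ) ^ 2 with hh
  set s : ℝ := 1 / (R : ℝ) with hs
  set K : ℝ := (4 * ((N + 1 : ℕ) : ℝ) + 2) * g ^ 2 with hK
  have hK0 : 0 ≤ K := by positivity
  have hg0 : 0 < g := by positivity
  have hh0 : 0 < h := by positivity
  have hs0 : 0 < s := by positivity
  have hs1 : s ≤ 1 := by rw [hs, div_le_one hR0]; exact hR1
  let u : Fin N → ℝ := fun j => -R + j / (m : ℝ) ^ 2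
  let a : Option (Fin N) → ℝ := fun k => match k with
    | none => 0
    | some j => u j + s
  let X : Option (Fin N) → Set ℝ := fun k => Set.Ico (a k) (a k + g)
  let α : ℝ → Option (Fin N) := fun t =>
    if H : ∃ j : Fin N, t ∈ Set.Ico (u j) (u j + h) then some H.choose else none
  have hα1 : ∀ t j, α t = some j → t ∈ Set.Ico (u j) (u j + h) := by
    intro t j hj
    by_cases H : ∃ j : Fin N, t ∈ Set.Ico (u j) (u j + h)
    · simp only [α, dif_pos H, Option.some.injEq] at hj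
      rw [← hj]; exact H.choose_spec
    · simp only [α, dif_neg H, reduceCtorEq] at hj
  have hα0 : ∀ t, α t = none → (R : ℝ) ≤ |t| := by
    intro t ht
    by_contra hlt
    rw [not_le, abs_lt] at hlt
    have H : ∃ j : Fin N, t ∈ Set.Ico (u j) (u j + h) := by
      have h0 : 0 ≤ (t + R) * m ^ 2 := mul_nonneg (by linarith) (by positivity)
      have hj : ⌊(t + R) * m ^ 2⌋₊ < N := by
        rw [Nat.floor_lt h0, hN]; push_cast
        exact mul_lt_mul_of_pos_right (by linarith) (by positivity)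
      refine ⟨⟨_, hj⟩, ?_, ?_⟩
      · have := Nat.floor_le h0
        have h2 : (⌊(t + R) * m ^ 2⌋₊ : ℝ) / (m : ℝ) ^ 2 ≤ t + R := by
          rw [div_le_iff₀ (by positivity)]; exact this
        simp only [u]; linarith
      · have := Nat.lt_floor_add_one ((t + R) * m ^ 2)
        have h2 : t + R < (⌊(t + R) * m ^ 2⌋₊ : ℝ) / (m : ℝ) ^ 2 + h := by
          rw [hh, ← add_div, lt_div_iff₀ (by positivity)]; exact this
        simp only [u]; linarith
    simp only [α, dif_pos H, reduceCtorEq] at ht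
  set S : ℝ := ∑ j : Fin N, (2 * h ^ 2 + K) * gI (u j) h / gI (u j + s) g +
      (8 + K) * (1 - ∫ t, φ t ∂(gaussianReal 0 1)) / gI 0 g with hS
  have hSs : S < s ^ 2 := hnum
  have hprod : 0 < ∏ k, gI (a k) g := prod_pos fun k _ => gI_pos _ _ hg0
  refine ⟨N, α, X, (∏ k, gI (a k) g) * (s ^ 2 - S) / 2, by
    have : 0 < s ^ 2 - S := by linarith
    positivity, ?_⟩
  intro Ω _ _ w h0 h1
  have Lp : ∀ k, Tendsto (fun M : ℕ => Ex (fun x => ind (sumW w M x ∈ X k))) atTop
      (𝓝 (gI (a k) g)) := fun k => clt_Ico w h0 h1 _ _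
  have LP : ∀ j, Tendsto (fun M : ℕ => Ex (fun x => ind (sumW w M x ∈ Set.Ico (u j) (u j + h))))
      atTop (𝓝 (gI (u j) h)) := fun j => clt_Ico w h0 h1 _ _
  have Lφ := clt_bcf w h0 h1 φ
  have Lall : Tendsto (fun M : ℕ => (∏ k, Ex (fun x => ind (sumW w M x ∈ X k))) * (s ^ 2 -
      (∑ j : Fin N, (2 * h ^ 2 + K) * Ex (fun x => ind (sumW w M x ∈ Set.Ico (u j) (u j + h))) /
        Ex (fun x => ind (sumW w M x ∈ X (some j))) +
      (8 + K) * (1 - Ex (fun x => φ (sumW w M x))) / Ex (fun x => ind (sumW w M x ∈ X none)))))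
      atTop (𝓝 ((∏ k, gI (a k) g) * (s ^ 2 - S))) := by
    refine (tendsto_finsetProd _ fun k _ => Lp k).mul (tendsto_const_nhds.sub (Tendsto.add ?_ ?_))
    · exact tendsto_finsetSum _ fun j _ =>
        ((LP j).const_mul _).div (Lp (some j)) (gI_pos _ _ hg0).ne'
    · exact ((tendsto_const_nhds.sub Lφ).const_mul _).div (Lp none) (gI_pos _ _ hg0).ne'
  have hlt : (∏ k, gI (a k) g) * (s ^ 2 - S) / 2 < (∏ k, gI (a k) g) * (s ^ 2 - S) := by
    have : 0 < (∏ k, gI (a k) g) * (s ^ 2 - S) := mul_pos hprod (by linarith)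
    linarith
  have E1 := Lall.eventually (lt_mem_nhds hlt)
  have E2 : ∀ᶠ M : ℕ in atTop, ∀ k, 0 < Ex (fun x => ind (sumW w M x ∈ X k)) :=
    eventually_all.2 fun k => (Lp k).eventually (lt_mem_nhds (gI_pos _ _ hg0))
  filter_upwards [E1, E2, eventually_ge_atTop 1] with M e1 e2 e3
  have hX : ∀ k, ∀ t ∈ X k, |t - a k| ≤ g := by
    intro k t ht
    rw [abs_le]; constructor
    · linarith [ht.1]
    · linarith [ht.2]
  have hW1 := sumW_sq w h0 h1 M e3
  obtain ⟨c, hc⟩ := gad_gain (sumW w M) (sumW_mean w h0 M) hW1 α X a g s hX e2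
  refine ⟨c, hc.trans ?_⟩
  have hcard : (4 * (Fintype.card (Option (Fin N)) : ℝ) + 2) * g ^ 2 = K := by
    rw [hK]; simp
  rw [hcard, Fintype.sum_option]
  have B1 : ∀ j : Fin N, Ex (fun x => ind (α (sumW w M x) = some j) *
      (2 * (sumW w M x + s - a (some j)) ^ 2 + K)) ≤
      (2 * h ^ 2 + K) * Ex (fun x => ind (sumW w M x ∈ Set.Ico (u j) (u j + h))) := by
    intro j
    rw [← Ex_const_mul]
    apply Ex_mono; intro x
    by_cases H : α (sumW w M x) = some j
    · have H2 := hα1 _ _ H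
      rw [ind_pos H, ind_pos H2]
      have : (sumW w M x + s - a (some j)) ^ 2 ≤ h ^ 2 := by
        simp only [a]
        exact sq_le_sq' (by linarith [H2.1]) (by linarith [H2.2])
      linarith
    · rw [ind_neg H, zero_mul]
      exact mul_nonneg (by positivity) (ind_nonneg _)
  have B0 : Ex (fun x => ind (α (sumW w M x) = none) *
      (2 * (sumW w M x + s - a none) ^ 2 + K)) ≤
      (8 + K) * (1 - Ex (fun x => φ (sumW w M x))) := by
    rw [← hW1, ← Ex_sub, ← Ex_const_mul]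
    apply Ex_mono; intro x
    by_cases H : α (sumW w M x) = none
    · have H2 := hα0 _ H
      rw [ind_pos H, hφ2 _ H2]
      simp only [a]
      have h3 : 1 ≤ sumW w M x ^ 2 := by
        rw [← sq_abs]; exact one_le_pow₀ (hR1.trans H2)
      have h4 : s ^ 2 ≤ 1 := pow_le_one₀ hs0.le hs1
      have h5 := mul_le_mul_of_nonneg_left h3 hK0
      nlinarith [sq_nonneg (sumW w M x - s)]
    · rw [ind_neg H, zero_mul]
      exact mul_nonneg (by positivity) (sub_nonneg.2 (hφ1 _))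
  have B2 := sum_le_sum fun j (_ : j ∈ univ) =>
    div_le_div_of_nonneg_right (B1 j) (e2 (some j)).le
  have B3 := div_le_div_of_nonneg_right B0 (e2 none).le
  have hp0 : 0 ≤ ∏ k, Ex (fun x => ind (sumW w M x ∈ X k)) := prod_nonneg fun k _ => (e2 k).le
  have B4 := mul_le_mul_of_nonneg_left (add_le_add B3 B2) hp0
  rw [mul_sub] at e1 ⊢
  linarith

end

end Vale.Agent.P047
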