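import Vale.Agent.P047.CLT

/-!
Gaussian estimates and the uniform gain of the gadget.
-/

namespace Vale.Agent.P047

open Finset MeasureTheory ProbabilityTheory Filter Topology
open scoped BoundedContinuousFunction

noncomputable section

/-- Gaussian probability of a half-open interval. -/
def gI (a l : ℝ) : ℝ := (gaussianReal 0 1).real (Set.Ico a (a + l))

lemma gI_eq (a l : ℝ) : gI a l = ∫ x in Set.Ico a (a + l), gaussianPDFReal 0 1 x := by
  unfold gI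
  rw [Measure.real, gaussianReal_apply_eq_integral _ one_ne_zero, ENNReal.toReal_ofReal]
  exact integral_nonneg fun x => gaussianPDFReal_nonneg _ _ _

lemma gI_le {a l c : ℝ} (hl : 0 ≤ l) (h : ∀ x ∈ Set.Ico a (a + l), gaussianPDFReal 0 1 x ≤ c) :
    gI a l ≤ l * c := by
  rw [gI_eq]
  have h1 : ∫ _ in Set.Ico a (a + l), c = l * c := by
    rw [setIntegral_const, Real.volume_real_Ico_of_le (by linarith)]; simp
  rw [← h1]
  exact setIntegral_mono_on (integrable_gaussianPDFReal _ _).integrableOn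
    (integrableOn_const (by simp)) measurableSet_Ico h

lemma gI_ge {a l c : ℝ} (hl : 0 ≤ l) (h : ∀ x ∈ Set.Ico a (a + l), c ≤ gaussianPDFReal 0 1 x) :
    l * c ≤ gI a l := by
  rw [gI_eq]
  have h1 : ∫ _ in Set.Ico a (a + l), c = l * c := by
    rw [setIntegral_const, Real.volume_real_Ico_of_le (by linarith)]; simp
  rw [← h1]
  exact setIntegral_mono_on (integrableOn_const (by simp))
    (integrable_gaussianPDFReal _ _).integrableOn measurableSet_Ico h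

lemma pdf_ratio {x y L : ℝ} (h : y ^ 2 - x ^ 2 ≤ 2 * L) :
    gaussianPDFReal 0 1 x ≤ Real.exp L * gaussianPDFReal 0 1 y := by
  unfold gaussianPDFReal
  rw [mul_left_comm, ← Real.exp_add]
  refine mul_le_mul_of_nonneg_left (Real.exp_le_exp.2 ?_) (by positivity)
  simp only [NNReal.coe_one, sub_zero]
  linarith

lemma integrable_pow_gauss (n : ℕ) : Integrable (fun t : ℝ => t ^ n) (gaussianReal 0 1) :=
  integrable_pow_of_mem_interior_integrableExpSet (X := fun t : ℝ => t) (by simp) n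

lemma integral_sq_gauss : ∫ t, t ^ 2 ∂(gaussianReal 0 1) = 1 := by
  have h := variance_fun_id_gaussianReal (μ := 0) (v := 1)
  rw [variance_eq_integral (by fun_prop)] at h
  simpa [integral_id_gaussianReal] using h

/-- A bounded continuous minorant of the square vanishing outside `[-R, R]`. -/
lemma exists_cut (R : ℝ) (hR : 0 < R) : ∃ φ : ℝ →ᵇ ℝ, (∀ t, φ t ≤ t ^ 2) ∧
    (∀ t, R ≤ |t| → φ t = 0) ∧
    1 - ∫ t, φ t ∂(gaussianReal 0 1) ≤ (∫ t, t ^ 18 ∂(gaussianReal 0 1)) / R ^ 16 := by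
  have hz : ∀ t, R ≤ |t| → max (t ^ 2 - t ^ 18 / R ^ 16) 0 = 0 := by
    intro t ht
    apply max_eq_right
    have h1 : R ^ 16 ≤ t ^ 16 := by
      have := pow_le_pow_left₀ hR.le ht 16
      rwa [Even.pow_abs (by decide)] at this
    have h2 : t ^ 2 ≤ t ^ 18 / R ^ 16 := by
      rw [le_div_iff₀ (by positivity)]
      calc t ^ 2 * R ^ 16 ≤ t ^ 2 * t ^ 16 := mul_le_mul_of_nonneg_left h1 (sq_nonneg t)
        _ = t ^ 18 := by ring
    linarith
  have hle : ∀ t : ℝ, max (t ^ 2 - t ^ 18 / R ^ 16) 0 ≤ t ^ 2 := by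
    intro t
    apply max_le _ (sq_nonneg t)
    have : 0 ≤ t ^ 18 / R ^ 16 := div_nonneg (Even.pow_nonneg (by decide) t) (by positivity)
    linarith
  let φ : ℝ →ᵇ ℝ := BoundedContinuousFunction.ofNormedAddCommGroup
    (fun t => max (t ^ 2 - t ^ 18 / R ^ 16) 0) (by fun_prop) (R ^ 2) (by
      intro t
      rw [Real.norm_eq_abs, abs_of_nonneg (le_max_right _ _)]
      rcases le_total R |t| with h | h
      · rw [hz t h]; positivity
      · refine (hle t).trans ?_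
        rw [← sq_abs t]
        exact pow_le_pow_left₀ (abs_nonneg t) h 2)
  refine ⟨φ, hle, hz, ?_⟩
  have h1 : ∫ t, (t ^ 2 - t ^ 18 / R ^ 16) ∂(gaussianReal 0 1) ≤ ∫ t, φ t ∂(gaussianReal 0 1) := by
    refine integral_mono ((integrable_pow_gauss 2).sub ((integrable_pow_gauss 18).div_const _))
      (φ.integrable _) fun t => ?_
    exact le_max_left _ _
  rw [integral_sub (integrable_pow_gauss 2) ((integrable_pow_gauss 18).div_const _),
    integral_sq_gauss, integral_div] at h1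
  linarith

lemma gI_pos (a l : ℝ) (hl : 0 < l) : 0 < gI a l := by
  have hpos : 0 < Real.exp (-(|a| + l) ^ 2) * gaussianPDFReal 0 1 0 :=
    mul_pos (Real.exp_pos _) (gaussianPDFReal_pos _ _ _ one_ne_zero)
  refine lt_of_lt_of_le (mul_pos hl hpos) (gI_ge hl.le ?_)
  intro x hx
  have h1 : |x| ≤ |a| + l := by
    rw [abs_le]; constructor
    · linarith [hx.1, neg_abs_le a]
    · linarith [hx.2, le_abs_self a]
  have h2 : x ^ 2 ≤ (|a| + l) ^ 2 := by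
    rw [← sq_abs x]; exact pow_le_pow_left₀ (abs_nonneg x) h1 2
  have h3 := pdf_ratio (x := 0) (y := x) (L := (|a| + l) ^ 2) (by nlinarith)
  have h4 := mul_le_mul_of_nonneg_left h3 (Real.exp_pos (-(|a| + l) ^ 2)).le
  rwa [← mul_assoc, ← Real.exp_add, neg_add_cancel, Real.exp_zero, one_mul] at h4

lemma cell_ratio {u s h g R m : ℝ} (hg0 : 0 < g) (hhg : h = m * g) (hgh : g ≤ h) (hhs : h ≤ s)
    (hs1 : s ≤ 1) (hR1 : 1 ≤ R) (hsR : s * R = 1) (hu2 : u + h ≤ R) :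
    gI u h ≤ Real.exp 4 * m * gI (u + s) g := by
  have hh0 : 0 < h := lt_of_lt_of_le hg0 hgh
  set y := gaussianPDFReal 0 1 (u + s) with hy
  have hy0 : 0 < y := gaussianPDFReal_pos _ _ _ one_ne_zero
  have up : gI u h ≤ h * (Real.exp 2 * y) := by
    refine gI_le hh0.le fun x hx => pdf_ratio ?_
    have h1 := hx.1
    have h2 := hx.2
    have h3 : (u + s) ^ 2 - x ^ 2 = (u + s - x) * (u + s + x) := by ring
    have h4 : u + s + x ≤ 4 * R := by linarith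
    have h5 : 0 ≤ u + s - x := by linarith
    have h6 : u + s - x ≤ s := by linarith
    rw [h3]
    calc (u + s - x) * (u + s + x) ≤ (u + s - x) * (4 * R) :=
          mul_le_mul_of_nonneg_left h4 h5
      _ ≤ s * (4 * R) := mul_le_mul_of_nonneg_right h6 (by positivity)
      _ = 2 * 2 := by linarith
  have lo : g * (Real.exp (-2) * y) ≤ gI (u + s) g := by
    refine gI_ge hg0.le fun x hx => ?_
    have h1 := hx.1
    have h2 := hx.2
    have h7 : x ^ 2 - (u + s) ^ 2 ≤ 2 * 2 := by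
      have h3 : x ^ 2 - (u + s) ^ 2 = (x - (u + s)) * (u + s + x) := by ring
      have h4 : u + s + x ≤ 4 * R := by linarith
      have h5 : 0 ≤ x - (u + s) := by linarith
      have h6 : x - (u + s) ≤ s := by linarith
      rw [h3]
      calc (x - (u + s)) * (u + s + x) ≤ (x - (u + s)) * (4 * R) :=
            mul_le_mul_of_nonneg_left h4 h5
        _ ≤ s * (4 * R) := mul_le_mul_of_nonneg_right h6 (by positivity)
        _ = 2 * 2 := by linarith
    have h3 := pdf_ratio (x := u + s) (y := x) (L := 2) h7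
    have h4 := mul_le_mul_of_nonneg_left h3 (Real.exp_pos (-2)).le
    rwa [← mul_assoc, ← Real.exp_add, neg_add_cancel, Real.exp_zero, one_mul] at h4
  have hE4 : Real.exp 4 * Real.exp (-2) = Real.exp 2 := by
    rw [← Real.exp_add]; norm_num
  have hm0 : 0 < m := by
    by_contra hm
    have : m * g ≤ 0 := mul_nonpos_of_nonpos_of_nonneg (not_lt.1 hm) hg0.le
    linarith
  calc gI u h ≤ h * (Real.exp 2 * y) := up
    _ = Real.exp 4 * m * (g * (Real.exp (-2) * y)) := by rw [← hE4, hhg]; ring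
    _ ≤ _ := mul_le_mul_of_nonneg_left lo (by positivity)

lemma tail_bound {R A m M c θ K G : ℝ} (hR1 : 1 ≤ R) (hA1 : 1 ≤ A) (hm : m = A * R ^ 4)
    (hM : 0 ≤ M) (hc : 0 < c) (hR : 88 * M * A ^ 3 / c + 1 ≤ R) (hθ : θ ≤ M / R ^ 16)
    (hK0 : 0 ≤ K) (hK : K ≤ 14) (hG : 1 / m ^ 3 * c ≤ G) :
    (8 + K) * θ / G ≤ (1 / R) ^ 2 / 4 := by
  have hR0 : 0 < R := by linarith
  have hA0 : 0 < A := by linarith
  have hm0 : 0 < m := by rw [hm]; positivity
  have hpos : 0 < 1 / m ^ 3 * c := by positivity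
  rw [div_le_iff₀ (lt_of_lt_of_le hpos hG)]
  have h2 : (8 + K) * θ ≤ 22 * (M / R ^ 16) := by
    calc (8 + K) * θ ≤ (8 + K) * (M / R ^ 16) := mul_le_mul_of_nonneg_left hθ (by linarith)
      _ ≤ 22 * (M / R ^ 16) := mul_le_mul_of_nonneg_right (by linarith) (by positivity)
  have h3 : 22 * (M / R ^ 16) ≤ (1 / R) ^ 2 / 4 * (1 / m ^ 3 * c) := by
    have e : (1 / R) ^ 2 / 4 * (1 / m ^ 3 * c) = c * R ^ 2 / (4 * A ^ 3) / R ^ 16 := by
      rw [hm]; field_simp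
    rw [e, ← mul_div_assoc]
    refine div_le_div_of_nonneg_right ?_ (by positivity)
    rw [le_div_iff₀ (by positivity)]
    have h5 : R ≤ R ^ 2 := le_self_pow₀ hR1 (by norm_num)
    have h4 : 88 * M * A ^ 3 / c ≤ R ^ 2 := by linarith
    rw [div_le_iff₀ hc] at h4
    linarith
  calc _ ≤ (1 / R) ^ 2 / 4 * (1 / m ^ 3 * c) := h2.trans h3
    _ ≤ _ := mul_le_mul_of_nonneg_left hG (by positivity)

/-- The numerical heart: a choice of cells with positive Gaussian gain. -/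
lemma gauss_numerics : ∃ (R m : ℕ) (φ : ℝ →ᵇ ℝ), 1 ≤ R ∧ R ≤ m ∧ (∀ t, φ t ≤ t ^ 2) ∧
    (∀ t, (R : ℝ) ≤ |t| → φ t = 0) ∧
    ∑ j : Fin (2 * R * m ^ 2), (2 * (1 / (m : ℝ) ^ 2) ^ 2 +
        (4 * ((2 * R * m ^ 2 + 1 : ℕ) : ℝ) + 2) * (1 / (m : ℝ) ^ 3) ^ 2) *
        gI (-R + j / (m : ℝ) ^ 2) (1 / (m : ℝ) ^ 2) /
        gI (-R + j / (m : ℝ) ^ 2 + 1 / R) (1 / (m : ℝ) ^ 3) +
      (8 + (4 * ((2 * R * m ^ 2 + 1 : ℕ) : ℝ) + 2) * (1 / (m : ℝ) ^ 3) ^ 2) *
        (1 - ∫ t, φ t ∂(gaussianReal 0 1)) / gI 0 (1 / (m : ℝ) ^ 3) < (1 / (R : ℝ)) ^ 2 := by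
  have hM0 : 0 ≤ ∫ t, t ^ 18 ∂(gaussianReal 0 1) :=
    integral_nonneg fun t => Even.pow_nonneg (by decide) t
  have hc : 0 < gaussianPDFReal 0 1 1 := gaussianPDFReal_pos _ _ _ one_ne_zero
  obtain ⟨A, hA⟩ := exists_nat_ge (128 * Real.exp 4)
  have hE : 1 ≤ Real.exp 4 := Real.one_le_exp (by norm_num)
  have hA1 : (1 : ℝ) ≤ A := by linarith
  obtain ⟨R, hR⟩ := exists_nat_ge
    (88 * (∫ t, t ^ 18 ∂(gaussianReal 0 1)) * A ^ 3 / gaussianPDFReal 0 1 1 + 1)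
  have hR1 : (1 : ℝ) ≤ R := by
    have : 0 ≤ 88 * (∫ t, t ^ 18 ∂(gaussianReal 0 1)) * A ^ 3 / gaussianPDFReal 0 1 1 := by
      positivity
    linarith
  have hR0 : (0 : ℝ) < R := by linarith
  obtain ⟨φ, hφ1, hφ2, hφ3⟩ := exists_cut R hR0
  have hRm : (R : ℝ) ≤ ((A * R ^ 4 : ℕ) : ℝ) := by
    push_cast
    have : (R : ℝ) ≤ R ^ 4 := le_self_pow₀ hR1 (by norm_num)
    nlinarith [pow_pos hR0 4]
  refine ⟨R, A * R ^ 4, φ, by exact_mod_cast hR1, by exact_mod_cast hRm, hφ1, hφ2, ?_⟩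
  generalize hm : A * R ^ 4 = m at *
  have hm1 : (1 : ℝ) ≤ m := hR1.trans hRm
  have hm0 : (0 : ℝ) < m := by linarith
  have hmr : (m : ℝ) = A * R ^ 4 := by rw [← hm]; push_cast; ring
  have hg0 : 0 < 1 / (m : ℝ) ^ 3 := by positivity
  have hhg : 1 / (m : ℝ) ^ 2 = m * (1 / (m : ℝ) ^ 3) := by field_simp
  have hgh : 1 / (m : ℝ) ^ 3 ≤ 1 / (m : ℝ) ^ 2 :=
    one_div_le_one_div_of_le (by positivity) (pow_le_pow_right₀ hm1 (by norm_num))
  have hRm2 : (R : ℝ) ≤ m ^ 2 := hRm.trans (le_self_pow₀ hm1 (by norm_num))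
  have hhs : 1 / (m : ℝ) ^ 2 ≤ 1 / (R : ℝ) := one_div_le_one_div_of_le hR0 hRm2
  have hs1 : 1 / (R : ℝ) ≤ 1 := by rw [div_le_one hR0]; exact hR1
  have hsR : 1 / (R : ℝ) * R = 1 := by field_simp
  have hK : (4 * ((2 * R * m ^ 2 + 1 : ℕ) : ℝ) + 2) * (1 / (m : ℝ) ^ 3) ^ 2 ≤
      14 * R * (1 / (m : ℝ) ^ 2) ^ 2 := by
    push_cast
    have e : 14 * R * (1 / (m : ℝ) ^ 2) ^ 2 = (14 * (R * m ^ 2)) * (1 / (m : ℝ) ^ 3) ^ 2 := by
      field_simp
    have h1 : (1 : ℝ) ≤ R * m ^ 2 := one_le_mul_of_one_le_of_one_le hR1 (one_le_pow₀ hm1)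
    rw [e]
    exact mul_le_mul_of_nonneg_right (by linarith) (by positivity)
  have hK0 : 0 ≤ (4 * ((2 * R * m ^ 2 + 1 : ℕ) : ℝ) + 2) * (1 / (m : ℝ) ^ 3) ^ 2 := by positivity
  generalize (4 * ((2 * R * m ^ 2 + 1 : ℕ) : ℝ) + 2) * (1 / (m : ℝ) ^ 3) ^ 2 = K at hK hK0 ⊢
  -- central cells
  have hcen : ∀ j : Fin (2 * R * m ^ 2), (2 * (1 / (m : ℝ) ^ 2) ^ 2 + K) *
      gI (-R + j / (m : ℝ) ^ 2) (1 / (m : ℝ) ^ 2) /
      gI (-R + j / (m : ℝ) ^ 2 + 1 / R) (1 / (m : ℝ) ^ 3) ≤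
      16 * R * (1 / (m : ℝ) ^ 2) ^ 2 * (Real.exp 4 * m) := by
    intro j
    have hu2 : -R + j / (m : ℝ) ^ 2 + 1 / (m : ℝ) ^ 2 ≤ R := by
      have h1 : ((j : ℕ) : ℝ) + 1 ≤ 2 * R * m ^ 2 := by exact_mod_cast j.2
      have h2 : ((j : ℕ) : ℝ) / (m : ℝ) ^ 2 + 1 / (m : ℝ) ^ 2 ≤ 2 * R := by
        rw [← add_div, div_le_iff₀ (by positivity)]; exact h1
      linarith
    have hr := cell_ratio hg0 hhg hgh hhs hs1 hR1 hsR hu2
    rw [div_le_iff₀ (gI_pos _ _ hg0), mul_assoc (16 * (R : ℝ) * _)]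
    have hc1 : 2 * (1 / (m : ℝ) ^ 2) ^ 2 + K ≤ 16 * R * (1 / (m : ℝ) ^ 2) ^ 2 := by
      have := mul_le_mul_of_nonneg_right hR1 (sq_nonneg (1 / (m : ℝ) ^ 2))
      linarith
    exact mul_le_mul hc1 hr measureReal_nonneg (by positivity)
  have hsum := sum_le_sum fun j (_ : j ∈ univ) => hcen j
  rw [sum_const, card_univ, Fintype.card_fin, nsmul_eq_mul] at hsum
  have hsum2 : ((2 * R * m ^ 2 : ℕ) : ℝ) * (16 * R * (1 / (m : ℝ) ^ 2) ^ 2 * (Real.exp 4 * m)) ≤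
      (1 / (R : ℝ)) ^ 2 / 4 := by
    have e : ((2 * R * m ^ 2 : ℕ) : ℝ) * (16 * R * (1 / (m : ℝ) ^ 2) ^ 2 * (Real.exp 4 * m)) =
        32 * Real.exp 4 * R ^ 2 / m := by
      push_cast; field_simp; ring
    rw [e, div_le_iff₀ hm0, hmr]
    have e2 : (1 / (R : ℝ)) ^ 2 / 4 * (A * R ^ 4) = A / 4 * R ^ 2 := by field_simp
    rw [e2]
    have : 32 * Real.exp 4 ≤ A / 4 := by linarith
    exact mul_le_mul_of_nonneg_right this (by positivity)
  -- the tail cell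
  have lo : 1 / (m : ℝ) ^ 3 * gaussianPDFReal 0 1 1 ≤ gI 0 (1 / (m : ℝ) ^ 3) := by
    refine gI_ge hg0.le fun x hx => ?_
    have h1 := hx.1
    have h2 : x ≤ 1 := by linarith [hx.2]
    have h4 : x ^ 2 ≤ 1 := pow_le_one₀ h1 h2
    have h3 := pdf_ratio (x := 1) (y := x) (L := 0) (by linarith)
    simpa using h3
  have hK14 : K ≤ 14 := by
    have h1 : R * (1 / (m : ℝ) ^ 2) ≤ 1 := by
      rw [mul_one_div, div_le_one (by positivity)]; exact hRm2
    have h2 : R * (1 / (m : ℝ) ^ 2) * (1 / (m : ℝ) ^ 2) ≤ 1 :=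
      mul_le_one₀ h1 (by positivity) (hhs.trans hs1)
    linarith
  have htail := tail_bound hR1 hA1 hmr hM0 hc hR hφ3 hK0 hK14 lo
  have : 0 < (1 / (R : ℝ)) ^ 2 := by positivity
  linarith

end

end Vale.Agent.P047
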