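import Vale.Agent.P047.Source
import Vale.Agent.P047.Defs

/-!
Balancing, composition, and the translation to Fourier coefficients.
-/

namespace Vale.Agent.P047

open Finset

noncomputable section

section
variable {ι : Type*} [Fintype ι] [DecidableEq ι]

lemma Ex_units (h : ℤˣ → ℝ) : Ex h = (h 1 + h (-1)) / 2 := by
  unfold Ex
  rw [UnitsInt.univ, sum_pair (by decide)]
  simp

lemma units_affine (h : ℤˣ → ℝ) (y : ℤˣ) :
    h y = (h 1 + h (-1)) / 2 + (h 1 - h (-1)) / 2 * ((y : ℤ) : ℝ) := by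
  rcases Int.units_eq_one_or y with e | e <;> simp [e] <;> ring

lemma Ex_push {Ω S κ : Type*} [Fintype Ω] [Fintype S] [Fintype κ] [DecidableEq κ] (σ : Ω → S)
    (h : ∀ g : S → ℝ, Ex (fun ω => g (σ ω)) = Ex g) (Φ : (κ → S) → ℝ) :
    Ex (fun x : κ → Ω => Φ (fun k => σ (x k))) = Ex Φ := by
  classical
  have e : ∀ z : κ → S, Φ z = ∑ a : κ → S, Φ a * ∏ k, ind (z k = a k) := by
    intro z
    simp only [prod_ind, ← funext_iff, mul_comm (Φ _)]
    rw [sum_ind_mul]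
  have e1 : Ex (fun x : κ → Ω => Φ (fun k => σ (x k))) =
      ∑ a : κ → S, Φ a * ∏ k, Ex (fun ω => ind (σ ω = a k)) := by
    rw [Ex_congr fun x => e _, Ex_sum]
    refine sum_congr rfl fun a _ => ?_
    rw [Ex_const_mul, Ex_pi_prod (fun k ω => ind (σ ω = a k))]
  have e2 : Ex Φ = ∑ a : κ → S, Φ a * ∏ k, Ex (fun s => ind (s = a k)) := by
    rw [Ex_congr fun x => e x, Ex_sum]
    refine sum_congr rfl fun a _ => ?_
    rw [Ex_const_mul, Ex_pi_prod (fun k s => ind (s = a k))]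
  rw [e1, e2]
  refine sum_congr rfl fun a _ => ?_
  rw [prod_congr rfl fun k _ => h (fun s => ind (s = a k))]

end

/-- There is a balanced Boolean function of junta degree at most `D` and linear sum `L`. -/
def Bal (D : ℕ) (L : ℝ) : Prop := ∃ (ι : Type) (_ : Fintype ι) (_ : DecidableEq ι)
  (f : (ι → ℤˣ) → ℤˣ), (∀ g : ℤˣ → ℝ, (fun x => g (f x)) ∈ Low ι ℤˣ D) ∧
    Ex (fun x => ((f x : ℤ) : ℝ)) = 0 ∧ Ex (fun x => T x * ((f x : ℤ) : ℝ)) = L

lemma bal_one : Bal 1 1 := by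
  refine ⟨Unit, inferInstance, inferInstance, fun x => x (), fun g => ?_, ?_, ?_⟩
  · exact Low_of_dep univ (by simp) fun x y hxy => by simp only [hxy () (mem_univ _)]
  · rw [← Ex_T (ι := Unit)]
    apply Ex_congr; intro x; simp [T]
  · simp [T, ← sq, units_sq, Ex_const]

lemma Bal.mul {D E : ℕ} {L K : ℝ} (h1 : Bal D L) (h2 : Bal E K) : Bal (D * E) (L * K) := by
  obtain ⟨ι, _, _, f, hf, hf0, hfL⟩ := h1
  obtain ⟨ι', _, _, g, hg, hg0, hgK⟩ := h2
  have push : ∀ h : ℤˣ → ℝ, Ex (fun ω => h (g ω)) = Ex h := by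
    intro h
    rw [Ex_congr fun ω => units_affine h (g ω), Ex_add, Ex_const, Ex_const_mul, hg0, Ex_units]
    ring
  have cal : ∀ h : ℤˣ → ℝ, Ex (fun x => 1 * T x * h (g x)) =
      Ex (fun x => (K * ((g x : ℤ) : ℝ)) * h (g x)) := by
    intro h
    have e1 : ∀ x, 1 * T x * h (g x) =
        (h 1 + h (-1)) / 2 * T x + (h 1 - h (-1)) / 2 * (T x * ((g x : ℤ) : ℝ)) := by
      intro x; rw [units_affine h (g x)]; ring
    have e2 : ∀ x, (K * ((g x : ℤ) : ℝ)) * h (g x) =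
        K * (h 1 + h (-1)) / 2 * ((g x : ℤ) : ℝ) + (h 1 - h (-1)) / 2 * K := by
      intro x
      have := units_sq (g x)
      rw [units_affine h (g x)]
      linear_combination (K * (h 1 - h (-1)) / 2) * this
    rw [Ex_congr e1, Ex_congr e2, Ex_add, Ex_add, Ex_const_mul, Ex_const_mul, Ex_const_mul,
      Ex_T, hgK, hg0, Ex_const]
    ring
  refine ⟨ι × ι', inferInstance, inferInstance, fun x => f (fun i => g (fun j => x (i, j))),
    fun h => Low_block g hg (hf h), ?_, ?_⟩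
  · rw [Ex_curry (fun x : ι → ι' → ℤˣ => ((f (fun i => g (x i)) : ℤ) : ℝ)),
      Ex_push g push (fun z => ((f z : ℤ) : ℝ)), hf0]
  · have := block_cal g 1 (fun x => K * ((g x : ℤ) : ℝ)) cal (fun z => ((f z : ℤ) : ℝ))
    simp only [one_mul] at this
    rw [this]
    simp only [← mul_sum, mul_assoc]
    rw [Ex_const_mul, Ex_push g push (fun z => (∑ i, ((z i : ℤ) : ℝ)) * ((f z : ℤ) : ℝ)), mul_comm]
    exact congrArg (· * K) hfL

lemma Bal.pow {D : ℕ} {L : ℝ} (h : Bal D L) (k : ℕ) : Bal (D ^ k) (L ^ k) := by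
  induction k with
  | zero => simpa using bal_one
  | succ k ih => rw [pow_succ, pow_succ]; exact ih.mul h

lemma exists_bal {ι : Type} [Fintype ι] [DecidableEq ι] (f : (ι → ℤˣ) → ℤˣ) (D : ℕ)
    (hf : ∀ g : ℤˣ → ℝ, (fun x => g (f x)) ∈ Low ι ℤˣ D) :
    ∃ L, Ex (fun x => T x * ((f x : ℤ) : ℝ)) - 1 ≤ L ∧ Bal (1 + D) L := by
  have split : ∀ H : ℤˣ → (ι → ℤˣ) → ℝ, Ex (fun x : Option ι → ℤˣ =>
      H (x none) (fun i => x none * x (some i))) = (Ex (H 1) + Ex (H (-1))) / 2 := by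
    intro H
    rw [← Ex_equiv (Equiv.piOptionEquivProd (β := fun _ : Option ι => ℤˣ)).symm, Ex_prod,
      ← Ex_units (fun y => Ex (H y))]
    apply Ex_congr; intro y
    exact Ex_equiv (Equiv.mulLeft (fun _ : ι => y)) (H y)
  refine ⟨Ex (fun x => T x * ((f x : ℤ) : ℝ)) + Ex (fun x => ((f x : ℤ) : ℝ)), ?_,
    Option ι, inferInstance, inferInstance,
    fun x => x none * f (fun i => x none * x (some i)), fun g => ?_, ?_, ?_⟩
  · have : Ex (fun _ : ι → ℤˣ => (-1 : ℝ)) ≤ Ex (fun x => ((f x : ℤ) : ℝ)) := by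
      apply Ex_mono; intro x
      rcases Int.units_eq_one_or (f x) with e | e <;> simp [e]
    rw [Ex_const] at this
    linarith
  · have e : (fun x : Option ι → ℤˣ => g (x none * f (fun i => x none * x (some i)))) =
        fun x => ∑ y : ℤˣ, ind (x none = y) * g (y * f (fun i => y * x (some i))) := by
      funext x; rw [sum_ind_mul]
    rw [e]
    refine Low_sum _ fun y _ => Low_mul ?_ ?_
    · exact Low_of_dep {none} (by simp) fun x x' h => by rw [h none (by simp)]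
    · exact Low_comap some (fun t => y * t) (hf (fun t => g (y * t)))
  · rw [split (fun y z => (((y * f z : ℤˣ) : ℤ) : ℝ))]
    simp [Ex_neg]
  · have e : ∀ x : Option ι → ℤˣ,
        T x * (((x none * f (fun i => x none * x (some i)) : ℤˣ) : ℤ) : ℝ) =
        T (fun i => x none * x (some i)) * ((f (fun i => x none * x (some i)) : ℤ) : ℝ) +
          ((f (fun i => x none * x (some i)) : ℤ) : ℝ) := by
      intro x
      have := units_sq (x none)
      simp only [T, Fintype.sum_option, Units.val_mul, Int.cast_mul, ← mul_sum]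
      linear_combination ((f (fun i => x none * x (some i)) : ℤ) : ℝ) * this
    rw [Ex_congr e, split (fun _ z => T z * ((f z : ℤ) : ℝ) + ((f z : ℤ) : ℝ)), Ex_add]
    ring

lemma coeff_eq_zero {n d : ℕ} {F : (Fin n → ℤˣ) → ℝ} (hF : F ∈ Low (Fin n) ℤˣ d)
    {S : Finset (Fin n)} (hS : d < S.card) : coeff F S = 0 := by
  unfold coeff
  rw [div_eq_zero_iff]; left
  induction hF using Submodule.span_induction with
  | mem F hF =>
    obtain ⟨J, hJ, hF⟩ := hF
    obtain ⟨i, hiS, hiJ⟩ := exists_mem_notMem_of_card_lt_card (lt_of_le_of_lt hJ hS)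
    have hinv : Function.Involutive (fun x : Fin n → ℤˣ => Function.update x i (- x i)) := by
      intro x; simp
    have h := Equiv.sum_comp hinv.toPerm (fun x => F x * ∏ j ∈ S, ((x j : ℤ) : ℝ))
    have e : ∀ x : Fin n → ℤˣ, F (hinv.toPerm _ x) * ∏ j ∈ S, ((hinv.toPerm _ x j : ℤ) : ℝ) =
        - (F x * ∏ j ∈ S, ((x j : ℤ) : ℝ)) := by
      intro x
      simp only [Function.Involutive.coe_toPerm]
      rw [hF _ x (fun j hj => Function.update_of_ne (by rintro rfl; exact hiJ hj) _ _),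
        ← mul_prod_erase S _ hiS, ← mul_prod_erase S _ hiS, Function.update_self,
        prod_congr rfl (fun j hj => by rw [Function.update_of_ne (ne_of_mem_erase hj)])]
      simp
    rw [sum_congr rfl fun x _ => e x, sum_neg_distrib] at h
    linarith
  | zero => simp
  | add F G _ _ h1 h2 => simp only [Pi.add_apply, add_mul, sum_add_distrib, h1, h2, add_zero]
  | smul c F _ h1 => simp only [Pi.smul_apply, smul_eq_mul, mul_assoc, ← mul_sum, h1, mul_zero]

lemma deg_le {n d : ℕ} {F : (Fin n → ℤˣ) → ℝ} (hF : F ∈ Low (Fin n) ℤˣ d) : deg F ≤ d := by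
  unfold deg
  refine Finset.sup_le fun S hS => ?_
  by_contra h
  exact (mem_filter.1 hS).2 (coeff_eq_zero hF (not_le.1 h))

lemma sum_coeff {n : ℕ} (F : (Fin n → ℤˣ) → ℝ) :
    ∑ i, coeff F {i} = Ex (fun x => T x * F x) := by
  simp only [coeff, prod_singleton, Ex, T, ← sum_div, Fintype.card_pi, Fintype.card_units_int,
    prod_const, card_univ, Fintype.card_fin]
  rw [sum_comm]
  simp only [← mul_sum, mul_comm]
  norm_num

lemma Bal.final {D : ℕ} {L : ℝ} (h : Bal D L) (hL : 0 < L) : ∃ n : ℕ, 1 ≤ n ∧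
    ∃ f : (Fin n → ℤˣ) → ℝ, IsBoolean f ∧ deg f ≤ D ∧ ∑ i, coeff f {i} = L := by
  obtain ⟨ι, _, _, f, hf, -, hfL⟩ := h
  let e := Fintype.equivFin ι
  have key : ∑ i, coeff (fun x : Fin (Fintype.card ι) → ℤˣ =>
      ((f (fun i => x (e i)) : ℤ) : ℝ)) {i} = L := by
    rw [sum_coeff, ← hfL, ← Ex_equiv (Equiv.arrowCongr e.symm (Equiv.refl ℤˣ))]
    apply Ex_congr; intro x
    congr 1
    exact (Equiv.sum_comp e (fun i => ((x i : ℤ) : ℝ))).symm
  refine ⟨Fintype.card ι, ?_, fun x => ((f (fun i => x (e i)) : ℤ) : ℝ), fun x => ?_, ?_, key⟩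
  · by_contra h0
    have : IsEmpty (Fin (Fintype.card ι)) := ⟨fun i => by have := i.2; omega⟩
    rw [univ_eq_empty, sum_empty] at key
    linarith
  · rcases Int.units_eq_one_or (f (fun i => x (e i))) with h | h <;> simp [h]
  · exact deg_le (Low_comap e id (hf (fun t => ((t : ℤ) : ℝ))))

lemma exists_bal_big : ∃ (D : ℕ) (L : ℝ), 2 ≤ D ∧ √D < L ∧ Bal D L := by
  obtain ⟨ι, _, _, f, D, hD, hf, hL⟩ := exists_big 3
  obtain ⟨L, hL2, hb⟩ := exists_bal f D hf
  refine ⟨1 + D, L, by omega, ?_, hb⟩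
  have hD1 : (1 : ℝ) ≤ D := by exact_mod_cast hD
  have h1 : 1 ≤ √(D : ℝ) := Real.one_le_sqrt.2 hD1
  have h2 : √((1 + D : ℕ) : ℝ) ≤ 2 * √D := by
    rw [Real.sqrt_le_left (by positivity), mul_pow, Real.sq_sqrt (by positivity)]
    push_cast; linarith
  linarith

theorem poly_lower : ∃ β c : ℝ, 1 / 2 < β ∧ 0 < c ∧ ∀ d : ℕ, 1 ≤ d → ∃ n : ℕ, 1 ≤ n ∧
    ∃ f : (Fin n → ℤˣ) → ℝ, IsBoolean f ∧ deg f ≤ d ∧ c * (d : ℝ) ^ β ≤ ∑ i, coeff f {i} := by
  obtain ⟨D, L, hD, hL, hb⟩ := exists_bal_big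
  have hD1 : (1 : ℝ) < D := by exact_mod_cast hD
  have hD0 : (0 : ℝ) < D := by linarith
  have hL0 : 0 < L := lt_of_le_of_lt (Real.sqrt_nonneg _) hL
  have hβ : (D : ℝ) ^ Real.logb D L = L := Real.rpow_logb hD0 hD1.ne' hL0
  have hβ2 : 1 / 2 < Real.logb D L := by
    rw [Real.lt_logb_iff_rpow_lt hD1 hL0, ← Real.sqrt_eq_rpow]; exact hL
  refine ⟨Real.logb D L, L⁻¹, hβ2, inv_pos.2 hL0, fun d hd => ?_⟩
  obtain ⟨n, hn, f, hf, hdeg, hsum⟩ := (hb.pow (Nat.log D d)).final (pow_pos hL0 _)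
  refine ⟨n, hn, f, hf, hdeg.trans (Nat.pow_log_le_self D (by omega)), ?_⟩
  rw [hsum, inv_mul_le_iff₀ hL0, ← pow_succ']
  have h1 : (d : ℝ) ≤ (D : ℝ) ^ (Nat.log D d + 1) := by
    exact_mod_cast (Nat.lt_pow_succ_log_self (by omega) d).le
  calc (d : ℝ) ^ Real.logb D L ≤ ((D : ℝ) ^ (Nat.log D d + 1)) ^ Real.logb D L :=
        Real.rpow_le_rpow (Nat.cast_nonneg _) h1 (by linarith)
    _ = L ^ (Nat.log D d + 1) := by
        rw [← Real.rpow_pow_comm hD0.le, hβ]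

theorem unbounded (C : ℝ) : ∃ n : ℕ, 1 ≤ n ∧ ∃ f : (Fin n → ℤˣ) → ℝ, IsBoolean f ∧
    C * √(deg f) < ∑ i, coeff f {i} := by
  obtain ⟨ι, _, _, f, D, hD, hf, hL⟩ := exists_big (2 * |C| + 1)
  obtain ⟨L, hL2, hb⟩ := exists_bal f D hf
  have hD1 : (1 : ℝ) ≤ D := by exact_mod_cast hD
  have h1 : 1 ≤ √(D : ℝ) := Real.one_le_sqrt.2 hD1
  have hC := abs_nonneg C
  have h3 : |C| * (2 * √D) < L := by nlinarith
  obtain ⟨n, hn, F, hF, hdeg, hsum⟩ := hb.final (lt_of_le_of_lt (by positivity) h3)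
  refine ⟨n, hn, F, hF, ?_⟩
  have h2 : √(deg F : ℝ) ≤ 2 * √D := by
    rw [Real.sqrt_le_left (by positivity), mul_pow, Real.sq_sqrt (by positivity)]
    have : (deg F : ℝ) ≤ ((1 + D : ℕ) : ℝ) := by exact_mod_cast hdeg
    push_cast at this; linarith
  rw [hsum]
  calc C * √(deg F : ℝ) ≤ |C| * √(deg F : ℝ) :=
        mul_le_mul_of_nonneg_right (le_abs_self C) (Real.sqrt_nonneg _)
    _ ≤ |C| * (2 * √D) := mul_le_mul_of_nonneg_left h2 hC
    _ < L := h3

end

end Vale.Agent.P047
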