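import Vale.Agent.P047.Gain

/-!
Sources: low-degree partitions of the cube together with the conditional mean of the coordinate
sum. Their variance-to-degree ratio can be made arbitrarily large.
-/

namespace Vale.Agent.P047

open Finset Filter Topology

noncomputable section

/-- The sum of the coordinates. -/
def T {ι : Type*} [Fintype ι] (x : ι → ℤˣ) : ℝ := ∑ i, ((x i : ℤ) : ℝ)

section
variable {ι : Type*} [Fintype ι] [DecidableEq ι]

lemma Ex_T : Ex (T : (ι → ℤˣ) → ℝ) = 0 := by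
  have h := Ex_equiv (Equiv.neg (ι → ℤˣ)) (T : (ι → ℤˣ) → ℝ)
  have e : (fun x : ι → ℤˣ => T (Equiv.neg (ι → ℤˣ) x)) = fun x => - T x := by
    funext x; simp [T]
  rw [e, Ex_neg] at h
  linarith

omit [DecidableEq ι] in
lemma T_block {κ : Type*} [Fintype κ] (x : κ × ι → ℤˣ) :
    T x = ∑ k, T (fun i => x (k, i)) := by
  simp [T, Fintype.sum_prod_type]

/-- A normalised source. -/
structure IsSrc (w : (ι → ℤˣ) → ℝ) (D : ℕ) (lam : ℝ) : Prop where
  D_pos : 1 ≤ D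
  lam_pos : 0 < lam
  low : ∀ g : ℝ → ℝ, (fun x => g (w x)) ∈ Low ι ℤˣ D
  cal : ∀ g : ℝ → ℝ, Ex (fun x => lam * T x * g (w x)) = Ex (fun x => w x * g (w x))
  norm : Ex (fun x => w x ^ 2) = 1

lemma IsSrc.mean {w : (ι → ℤˣ) → ℝ} {D : ℕ} {lam : ℝ} (h : IsSrc w D lam) : Ex w = 0 := by
  have := h.cal (fun _ => 1)
  simp only [mul_one] at this
  rw [Ex_const_mul, Ex_T, mul_zero] at this
  exact this.symm

lemma block_cal {S κ : Type*} [Fintype κ] [DecidableEq κ] (σ : (ι → ℤˣ) → S) (lam : ℝ)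
    (w : (ι → ℤˣ) → ℝ)
    (h : ∀ g : S → ℝ, Ex (fun x => lam * T x * g (σ x)) = Ex (fun x => w x * g (σ x)))
    (Φ : (κ → S) → ℝ) :
    Ex (fun x : κ × ι → ℤˣ => lam * T x * Φ (fun k => σ (fun i => x (k, i)))) =
      Ex (fun x : κ → ι → ℤˣ => (∑ k, w (x k)) * Φ (fun k => σ (x k))) := by
  simp only [T_block, mul_sum, sum_mul]
  rw [Ex_curry (fun x : κ → ι → ℤˣ => ∑ k, lam * T (x k) * Φ (fun k => σ (x k))), Ex_sum, Ex_sum]
  exact sum_congr rfl fun k _ => Ex_swap σ (fun x => lam * T x) w h k Φ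

lemma IsSrc.sum {w : (ι → ℤˣ) → ℝ} {D : ℕ} {lam : ℝ} (h : IsSrc w D lam) {M : ℕ} (hM : 1 ≤ M) :
    IsSrc (fun x : Fin M × ι → ℤˣ => sumW w M (fun k i => x (k, i))) (M * D)
      ((√M)⁻¹ * lam) where
  D_pos := Nat.mul_pos hM h.D_pos
  lam_pos := mul_pos (inv_pos.2 (Real.sqrt_pos.2 (by exact_mod_cast hM))) h.lam_pos
  low g := Low_block w h.low (Φ := fun z : Fin M → ℝ => g ((√M)⁻¹ * ∑ k, z k))
    (Low_of_dep univ (by simp) fun x y hxy => by rw [funext fun i => hxy i (mem_univ i)])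
  cal g := by
    have := block_cal w lam w h.cal (fun z : Fin M → ℝ => g ((√M)⁻¹ * ∑ k, z k))
    rw [Ex_curry (fun x : Fin M → ι → ℤˣ => sumW w M x * g (sumW w M x))]
    simp only [sumW, mul_assoc] at this ⊢
    rw [Ex_const_mul, Ex_const_mul (√M)⁻¹, this]
  norm := by
    rw [Ex_curry (fun x : Fin M → ι → ℤˣ => sumW w M x ^ 2)]
    exact sumW_sq w h.mean h.norm M hM

lemma exists_calib {Ω : Type*} [Fintype Ω] (σ A : Ω → ℝ) : ∃ m : ℝ → ℝ,
    ∀ g : ℝ → ℝ, Ex (fun x => A x * g (σ x)) = Ex (fun x => m (σ x) * g (σ x)) := by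
  refine ⟨fun s => (∑ y, ind (σ y = s) * A y) / ∑ y, ind (σ y = s), fun g => ?_⟩
  unfold Ex
  congr 1
  have hpos : ∀ x, 0 < ∑ y, ind (σ y = σ x) := fun x =>
    sum_pos' (fun y _ => ind_nonneg _) ⟨x, mem_univ x, by rw [ind_pos rfl]; norm_num⟩
  simp only [sum_div, sum_mul]
  rw [sum_comm]
  refine sum_congr rfl fun y _ => ?_
  have : ∀ x, ind (σ y = σ x) * A y / (∑ z, ind (σ z = σ x)) * g (σ x) =
      ind (σ x = σ y) * (A y * g (σ y) / ∑ z, ind (σ z = σ y)) := by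
    intro x
    by_cases hxy : σ x = σ y
    · rw [ind_pos hxy, ind_pos hxy.symm, hxy]; ring
    · rw [ind_neg hxy, ind_neg (Ne.symm hxy)]; ring
  simp only [this]
  rw [← sum_mul, mul_div_cancel₀ _ (hpos y).ne']

lemma IsSrc.improve {w : (ι → ℤˣ) → ℝ} {D : ℕ} {lam : ℝ} (h : IsSrc w D lam)
    {κ : Type*} [Fintype κ] [DecidableEq κ] [Nonempty κ] {n : ℕ} (hn : 1 ≤ n)
    (σ : (κ → ℝ) → ℝ) (hσ : ∀ g : ℝ → ℝ, (fun z => g (σ z)) ∈ Low κ ℝ n) {v : ℝ} (hv : 0 < v)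
    (hE : Ex (fun x : κ → ι → ℤˣ => (∑ k, w (x k) - σ (fun k => w (x k))) ^ 2) ≤
      Fintype.card κ - v) :
    ∃ (w' : (κ × ι → ℤˣ) → ℝ) (lam' : ℝ), IsSrc w' (n * D) lam' ∧ lam' ^ 2 * v ≤ lam ^ 2 := by
  set τ : (κ × ι → ℤˣ) → ℝ := fun x => σ (fun k => w (fun i => x (k, i))) with hτ
  obtain ⟨m, hm⟩ := exists_calib τ (fun x => lam * T x)
  set V : ℝ := Ex (fun x => m (τ x) ^ 2) with hV
  have h1 : Ex (fun x => m (τ x) * τ x) =
      Ex (fun x : κ → ι → ℤˣ => (∑ k, w (x k)) * σ (fun k => w (x k))) := by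
    rw [← hm (fun t => t)]
    exact block_cal w lam w h.cal σ
  have h2 : Ex (fun x => τ x ^ 2) = Ex (fun x : κ → ι → ℤˣ => σ (fun k => w (x k)) ^ 2) :=
    Ex_curry (fun x : κ → ι → ℤˣ => σ (fun k => w (x k)) ^ 2)
  have h3 := Ex_sum_sq (κ := κ) w h.mean h.norm
  have h4 : Ex (fun x : κ → ι → ℤˣ => (∑ k, w (x k) - σ (fun k => w (x k))) ^ 2) =
      Ex (fun x : κ → ι → ℤˣ => (∑ k, w (x k)) ^ 2) -
      2 * Ex (fun x : κ → ι → ℤˣ => (∑ k, w (x k)) * σ (fun k => w (x k))) +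
      Ex (fun x : κ → ι → ℤˣ => σ (fun k => w (x k)) ^ 2) := by
    rw [← Ex_const_mul, ← Ex_sub, ← Ex_add]
    apply Ex_congr; intro x; ring
  have h5 : 2 * Ex (fun x => m (τ x) * τ x) - Ex (fun x => τ x ^ 2) ≤ V := by
    rw [← Ex_const_mul, ← Ex_sub]
    apply Ex_mono; intro x
    nlinarith [sq_nonneg (m (τ x) - τ x)]
  have hvV : v ≤ V := by linarith
  have hV0 : 0 < V := lt_of_lt_of_le hv hvV
  have hs : 0 < √V := Real.sqrt_pos.2 hV0
  refine ⟨fun x => (√V)⁻¹ * m (τ x), (√V)⁻¹ * lam, ⟨Nat.mul_pos hn h.D_pos,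
    mul_pos (inv_pos.2 hs) h.lam_pos, fun g => ?_, fun g => ?_, ?_⟩, ?_⟩
  · exact Low_block w h.low (hσ (fun t => g ((√V)⁻¹ * m t)))
  · have := hm (fun t => g ((√V)⁻¹ * m t))
    simp only [mul_assoc] at this ⊢
    rw [Ex_const_mul, Ex_const_mul (√V)⁻¹, this]
  · simp only [mul_pow]
    rw [Ex_const_mul, inv_pow, Real.sq_sqrt hV0.le, inv_mul_cancel₀ hV0.ne']
  · rw [mul_pow, inv_pow, Real.sq_sqrt hV0.le]
    have : V⁻¹ * v ≤ 1 := by rw [inv_mul_le_iff₀ hV0]; linarith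
    nlinarith [sq_nonneg lam]

end

/-- There is a source with ratio at most `r`. -/
def Good (r : ℝ) : Prop := ∃ (ι : Type) (_ : Fintype ι) (_ : DecidableEq ι)
  (w : (ι → ℤˣ) → ℝ) (D : ℕ) (lam : ℝ), IsSrc w D lam ∧ lam ^ 2 * D ≤ r

lemma units_sq (y : ℤˣ) : ((y : ℤ) : ℝ) ^ 2 = 1 := by
  rcases Int.units_eq_one_or y with h | h <;> simp [h]

lemma good_one : Good 1 := by
  refine ⟨Unit, inferInstance, inferInstance, T, 1, 1, ⟨le_rfl, one_pos, fun g => ?_, fun g => ?_,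
    ?_⟩, by simp⟩
  · exact Low_of_dep univ (by simp) fun x y hxy => by rw [funext fun i => hxy i (mem_univ i)]
  · simp
  · simp [T, units_sq, Ex_const]

lemma good_step : ∃ q : ℝ, 0 ≤ q ∧ q < 1 ∧ ∀ r, Good r → Good (q * r) := by
  obtain ⟨N, α, X, γ, hγ, H⟩ := uniform_gain
  have hN : (0 : ℝ) < (N + 1 : ℕ) := by positivity
  refine ⟨((N + 1 : ℕ) : ℝ) / ((N + 1 : ℕ) + γ), by positivity,
    (div_lt_one (by positivity)).2 (by linarith), ?_⟩
  rintro r ⟨ι, _, _, w, D, lam, hw, hr⟩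
  obtain ⟨M, ⟨c, hc⟩, hM⟩ := ((H _ w hw.mean hw.norm).and (eventually_ge_atTop 1)).exists
  have hM0 : (0 : ℝ) < M := by exact_mod_cast hM
  obtain ⟨w', lam', hw', hl⟩ := (hw.sum hM).improve (κ := Option (Option (Fin N)))
    (n := N + 1) (by omega) (gad α X c) (fun g => by simpa using gad_low α X c g)
    (v := (N + 1 : ℕ) + γ) (by positivity) (by
      have := Ex_equiv (Equiv.piCongrRight fun _ : Option (Option (Fin N)) =>
        Equiv.curry (Fin M) ι ℤˣ) (fun x : Option (Option (Fin N)) → (Fin M → ι → ℤˣ) =>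
          (∑ k, sumW w M (x k) - gad α X c (fun k => sumW w M (x k))) ^ 2)
      rw [← this] at hc
      refine hc.trans (le_of_eq ?_)
      simp)
  refine ⟨_, inferInstance, inferInstance, w', _, lam', hw', ?_⟩
  rw [mul_pow, inv_pow, Real.sq_sqrt hM0.le] at hl
  have hD : (0 : ℝ) ≤ D := Nat.cast_nonneg _
  rw [div_mul_eq_mul_div, le_div_iff₀ (by positivity)]
  calc lam' ^ 2 * (((N + 1) * (M * D) : ℕ) : ℝ) * ((N + 1 : ℕ) + γ)
      = (lam' ^ 2 * ((N + 1 : ℕ) + γ)) * (M * D * (N + 1 : ℕ)) := by push_cast; ring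
    _ ≤ ((M : ℝ)⁻¹ * lam ^ 2) * (M * D * (N + 1 : ℕ)) :=
        mul_le_mul_of_nonneg_right hl (by positivity)
    _ = (N + 1 : ℕ) * (lam ^ 2 * D) := by field_simp
    _ ≤ _ := mul_le_mul_of_nonneg_left hr hN.le

lemma good_all (r : ℝ) (hr : 0 < r) : Good r := by
  obtain ⟨q, hq0, hq1, H⟩ := good_step
  have h : ∀ k : ℕ, Good (q ^ k) := by
    intro k
    induction k with
    | zero => simpa using good_one
    | succ k ih => rw [pow_succ']; exact H _ ih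
  obtain ⟨k, hk⟩ := exists_pow_lt_of_lt_one hr hq1
  obtain ⟨ι, _, _, w, D, lam, hw, h'⟩ := h k
  exact ⟨ι, _, _, w, D, lam, hw, h'.trans hk.le⟩

/-- Boolean functions with an arbitrarily large ratio. -/
theorem exists_big (C : ℝ) : ∃ (ι : Type) (_ : Fintype ι) (_ : DecidableEq ι)
    (f : (ι → ℤˣ) → ℤˣ) (D : ℕ), 1 ≤ D ∧ (∀ g : ℤˣ → ℝ, (fun x => g (f x)) ∈ Low ι ℤˣ D) ∧
      C * √D < Ex (fun x => T x * ((f x : ℤ) : ℝ)) := by
  have hc : 0 < gI 1 1 / 2 := half_pos (gI_pos _ _ one_pos)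
  set c := gI 1 1 / 2 with hcdef
  have hC : 0 < |C| + 1 := by positivity
  obtain ⟨ι, _, _, w, D, lam, hw, hr⟩ := good_all ((c / (|C| + 1)) ^ 2) (by positivity)
  have L := clt_Ico w hw.mean hw.norm 1 (1 + 1)
  have hlt : c < gI 1 1 := by linarith
  obtain ⟨M, hM1, hM⟩ := ((L.eventually (lt_mem_nhds hlt)).and (eventually_ge_atTop 1)).exists
  have hM0 : (0 : ℝ) < M := by exact_mod_cast hM
  have hs := hw.sum hM
  rw [← Ex_curry] at hM1
  have hr' : ((√M)⁻¹ * lam) ^ 2 * ((M * D : ℕ) : ℝ) ≤ (c / (|C| + 1)) ^ 2 := by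
    rw [mul_pow, inv_pow, Real.sq_sqrt hM0.le]
    push_cast
    calc (M : ℝ)⁻¹ * lam ^ 2 * (M * D) = lam ^ 2 * D := by field_simp
      _ ≤ _ := hr
  generalize (√M)⁻¹ * lam = l at hs hr'
  generalize M * D = E at hs hr'
  set W : (Fin M × ι → ℤˣ) → ℝ := fun x => sumW w M (fun k i => x (k, i)) with hW
  let sg : ℝ → ℤˣ := fun t => if 0 ≤ t then 1 else -1
  refine ⟨Fin M × ι, inferInstance, inferInstance, fun x => sg (W x), E, hs.D_pos,
    fun g => hs.low (fun t => g (sg t)), ?_⟩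
  have h1 := hs.cal (fun t => ((sg t : ℤ) : ℝ))
  simp only [mul_assoc] at h1
  rw [Ex_const_mul] at h1
  have h2 : Ex (fun x => ind (W x ∈ Set.Ico 1 (1 + 1))) ≤ Ex (fun x => W x * ((sg (W x) : ℤ) : ℝ)) := by
    apply Ex_mono; intro x
    by_cases h : W x ∈ Set.Ico 1 (1 + 1)
    · rw [ind_pos h]
      have : 0 ≤ W x := by linarith [h.1]
      simp only [sg, if_pos this]; simpa using h.1
    · rw [ind_neg h]
      by_cases h0 : 0 ≤ W x
      · simp only [sg, if_pos h0]; simpa using h0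
      · simp only [sg, if_neg h0]; simp; linarith
  have h3 : c < l * Ex (fun x => T x * ((sg (W x) : ℤ) : ℝ)) := by
    rw [h1]; exact lt_of_lt_of_le hM1 h2
  have hl := hs.lam_pos
  have h4 : l * √E ≤ c / (|C| + 1) := by
    refine (pow_le_pow_iff_left₀ (by positivity) (by positivity) two_ne_zero).1 ?_
    rw [mul_pow, Real.sq_sqrt (Nat.cast_nonneg _)]; exact hr'
  rw [le_div_iff₀ hC] at h4
  have h5 : l * (C * √E) ≤ l * √E * (|C| + 1) := by
    have := le_abs_self C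
    have h6 : 0 ≤ l * √E := by positivity
    nlinarith
  exact lt_of_mul_lt_mul_left (by linarith) hl.le

end

end Vale.Agent.P047
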